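import Vale.Agent.P338.R3.H900.Cpt2
import Vale.Agent.P338.R3.H352.Run

/-!
P338-D: the values of the diagonal codes of the one-digit transform (helper352) are approximable in
polynomial time.
-/

namespace Vale.Agent.P338.R3.H900

open Vale.Agent.Lib.PolyTime Function
open Vale.Agent.P338.R3.H352

variable {A : Set Word} {δ : Type*} [Enc δ]

/-! ### Codes -/

/-- The data of a code. -/
def dcT : Dc → ℕ × ℕ × Bool × Bool
  | .bA t => (0, t, false, false)
  | .bB t => (1, t, false, false)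
  | .bC t => (2, t, false, false)
  | .psi neg => (3, 0, neg, false)
  | .pre w => (4, 0, w, false)
  | .post w => (5, 0, w, false)
  | .mul w sg => (6, 0, w, sg)
  | .div w sg => (7, 0, w, sg)

instance : Enc Dc := ⟨fun c => enc (dcT c)⟩

instance : Inhabited Dc := ⟨.bA 0⟩

theorem PT.dcT {c : δ → Dc} (hc : PT A c) : PT A (fun x => dcT (c x)) := by
  obtain ⟨g, hg, hg'⟩ := hc
  exact ⟨g, hg, fun a => hg' a⟩

theorem PT.dcT_of {c : δ → Dc} (hc : PT A (fun x => H900.dcT (c x))) : PT A c := by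
  obtain ⟨g, hg, hg'⟩ := hc
  exact ⟨g, hg, fun a => hg' a⟩

/-- The code with the bit number cut at `a`. -/
def clampD (a : ℕ) : Dc → Dc
  | .bA t => .bA (min t a)
  | .bB t => .bB (min t a)
  | .bC t => .bC (min t a)
  | c => c

/-- The bit numbers of a code are at most `a`. -/
def okD (a : ℕ) : Dc → Prop
  | .bA t => t ≤ a
  | .bB t => t ≤ a
  | .bC t => t ≤ a
  | _ => True

theorem clampD_of_ok {a : ℕ} {c : Dc} (h : okD a c) : clampD a c = c := by
  cases c <;> simp_all [clampD, okD]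

/-- The value with a cut bit number: the same as `Dc.val` on the codes of `prog a`. -/
noncomputable def lvc (a s : ℕ) (c : Dc) (p : ℕ) : ℂ := (clampD a c).val a s p

theorem lvc_eq {a s : ℕ} {c : Dc} (h : okD a c) (p : ℕ) : lvc a s c p = c.val a s p := by
  rw [lvc, clampD_of_ok h]

theorem norm_lvc {a s : ℕ} (hs : 0 < s) (c : Dc) (p : ℕ) : ‖lvc a s c p‖ ≤ 3 * 2 ^ a :=
  norm_val hs _ p

/-- A layer with a code of small bit number. -/
def okL (a : ℕ) : H352.Ly → Prop
  | .dg c => okD a c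
  | _ => True

theorem okL_gL (a r : ℕ) (h : r ≤ a) : ∀ o ∈ gL r, okL a o := by
  induction r with
  | zero => simp [gL]
  | succ r ih =>
    intro o ho
    simp only [gL, List.cons_append, List.nil_append, List.mem_cons] at ho
    rcases ho with rfl | rfl | rfl | rfl | ho
    · trivial
    · exact (by omega : r ≤ a)
    · trivial
    · exact (by omega : r ≤ a)
    · exact ih (by omega) o ho

theorem okL_giL (a r : ℕ) (h : r ≤ a) : ∀ o ∈ giL r, okL a o := by
  induction r with
  | zero => simp [giL]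
  | succ r ih =>
    intro o ho
    simp only [giL, List.mem_append, List.mem_cons, List.not_mem_nil, or_false] at ho
    rcases ho with ho | rfl | rfl | rfl | rfl
    · exact ih (by omega) o ho
    · exact (by omega : r ≤ a)
    · trivial
    · exact (by omega : r ≤ a)
    · trivial

theorem okL_half (a : ℕ) (w sg : Bool) : ∀ o ∈ half a w sg, okL a o := by
  intro o ho
  simp only [half, List.mem_append, List.mem_cons, List.not_mem_nil, or_false] at ho
  rcases ho with ho | (rfl | rfl | rfl) | ho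
  · exact okL_gL a a le_rfl o ho
  · trivial
  · cases w <;> trivial
  · trivial
  · exact okL_giL a a le_rfl o ho

theorem okL_blk (a : ℕ) (w : Bool) : ∀ o ∈ blk a w, okL a o := by
  intro o ho
  simp only [blk, List.mem_append, List.mem_cons, List.not_mem_nil, or_false] at ho
  rcases ho with rfl | ho | rfl | ho | rfl | rfl
  · trivial
  · exact okL_half a w false o ho
  · trivial
  · exact okL_half a w true o ho
  · trivial
  · trivial

/-- All codes of the program have small bit numbers. -/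
theorem okL_prog (a : ℕ) : ∀ o ∈ prog a, okL a o := by
  intro o ho
  simp only [prog, List.mem_append] at ho
  rcases ho with ho | ho | ho
  · exact okL_blk a _ o ho
  · exact okL_blk a _ o ho
  · exact okL_blk a _ o ho

theorem lvc_prog {a s : ℕ} {c : Dc} (h : H352.Ly.dg c ∈ prog a) (p : ℕ) :
    lvc a s c p = c.val a s p := lvc_eq (okL_prog a _ h) p

/-! ### Bit reversal -/

theorem fr_eq (r : ℕ) : ∀ v : ℕ, v < 2 ^ r →
    fr r v = ∑ i ∈ Finset.range r, (v.testBit i).toNat * 2 ^ (r - 1 - i) := by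
  induction r with
  | zero => intro v _; simp [fr]
  | succ r ih =>
    intro v hv
    rw [fr, ih (v % 2 ^ r) (Nat.mod_lt _ (by positivity)), Finset.sum_range_succ, Finset.mul_sum]
    congr 1
    · refine Finset.sum_congr rfl fun i hi => ?_
      have hi' := Finset.mem_range.1 hi
      rw [Nat.testBit_mod_two_pow]
      have e : r + 1 - 1 - i = (r - 1 - i) + 1 := by omega
      rw [e, pow_succ]
      simp [hi']
      ring
    · have h1 : v / 2 ^ r < 2 := by
        rw [Nat.div_lt_iff_lt_mul (by positivity)]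
        rw [pow_succ] at hv
        omega
      have h2 : r + 1 - 1 - r = 0 := by omega
      rw [h2, pow_zero, mul_one, Nat.testBit_eq_decide_div_mod_eq]
      generalize v / 2 ^ r = c at *
      have h3 : c = 0 ∨ c = 1 := by omega
      rcases h3 with rfl | rfl <;> rfl

/-! ### The factors -/

section factors

variable {a s v t p : δ → ℕ}

theorem cpt_zt {N : δ → ℕ} {k : δ → ℤ} (hN : PT A N) (hk : PT A k) :
    CPT A (fun x => zt (N x) (k x)) := CPT.expDiv hk hN

theorem pt_bnat {b : δ → Bool} (hb : PT A b) : PT A (fun x => (b x).toNat) :=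
  (PT.cond hb (PT.const 1) (PT.const 0)).congr fun x => by cases b x <;> rfl

theorem pt_fr (ha : PT A a) (hab : PBd a) (hv : PT A v) :
    PT A (fun x => fr (a x) (v x % 2 ^ a x)) := by
  have hR : PT A (fun x => v x % 2 ^ a x) := hv.mod (PT.pow (PT.const 2) ha hab)
  have h1 : PT A (fun q : δ × ℕ => a q.1 - 1 - q.2) :=
    ((ha.comp PT.fst').sub (PT.const 1)).sub PT.snd'
  have h2 : PBd (fun q : δ × ℕ => a q.1 - 1 - q.2) :=
    (PBd.comp (A := A) hab PT.fst').mono fun q => by omega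
  refine (PT.natSumRange (f := fun x i =>
    ((v x % 2 ^ a x).testBit i).toNat * 2 ^ (a x - 1 - i)) ha hab ?_).congr fun x =>
      (fr_eq _ _ (Nat.mod_lt _ (by positivity))).symm
  exact (pt_bnat ((hR.comp PT.fst').testBit PT.snd')).mul (PT.pow (PT.const 2) h1 h2)

theorem pt_sgw {w : δ → Bool} (hw : PT A w) : PT A (fun x => sgw (w x)) :=
  (PT.cond hw (PT.const (-1)) (PT.const 1)).congr fun x => by
    rw [sgw]; cases w x <;> rfl

theorem cpt_chp {w : δ → Bool} {d : δ → ℤ} (hs : PT A s) (hw : PT A w) (hd : PT A d) :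
    CPT A (fun x => chp (s x) (w x) (d x)) :=
  cpt_zt hs (((pt_sgw hw).intMul (((hs.add (PT.const 1)).div (PT.const 2)).natCast)).intMul
    (hd.intMul hd))

theorem cpt_chi {w : δ → Bool} {d : δ → ℤ} (hs : PT A s) (hw : PT A w) (hd : PT A d) :
    CPT A (fun x => chi (s x) (w x) (d x)) :=
  cpt_zt hs (((pt_sgw hw).intMul (((hs.add (PT.const 1)).div (PT.const 2)).natCast)).intMul
    (hd.intMul hd)).intNeg

theorem cpt_fac {w : δ → Bool} (hs : PT A s) (hw : PT A w) :
    CPT A (fun x => fac (s x) (w x)) :=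
  (CPT.cond hw (CPT.one.divNat hs).neg CPT.one).congr fun x => by
    rw [fac]; cases w x <;> rfl

theorem cpt_tau {w : δ → Bool} {d : δ → ℤ} (hs : PT A s) (hw : PT A w) (hd : PT A d) :
    CPT A (fun x => tau (s x) (w x) (d x)) := (cpt_fac hs hw).mul (cpt_chi hs hw hd)

theorem CPT.half {z : δ → ℂ} (hz : CPT A z) : CPT A (fun x => z x / 2) :=
  (hz.divNat (n := fun _ => 2) (PT.const 2)).congr fun x => by norm_num

theorem cpt_tsy {w sg : δ → Bool} {d : δ → ℕ} (ha : PT A a) (hab : PBd a) (hs : PT A s)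
    (hw : PT A w) (hsg : PT A sg) (hd : PT A d) :
    CPT A (fun x => tsy (a x) (tau (s x) (w x)) (2 ^ (a x + 1)) (sg x) (d x)) := by
  have ha1 : PT A (fun x => a x + 1) := ha.add (PT.const 1)
  have ha1b : PBd (fun x => a x + 1) := hab.add (PBd.const 1)
  have hR : PT A (fun x => (2 : ℤ) ^ a x) := pt_two_pow ha hab
  have hk : CPT A (fun x => (2 : ℂ) ^ (a x + 1)) := CPT.twoPow ha1 ha1b
  have h1 : CPT A (fun x => tau (s x) (w x) (d x)) := cpt_tau hs hw hd.natCast
  have h2 : CPT A (fun x => tau (s x) (w x) ((d x : ℤ) - 2 ^ a x)) :=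
    cpt_tau hs hw (hd.natCast.intSub hR)
  have h3 : CPT A (fun x => zt (2 ^ (a x + 1)) (d x)) :=
    cpt_zt (PT.pow (PT.const 2) ha1 ha1b) hd.natCast
  have h4 : CPT A (fun x => if sg x then (tau (s x) (w x) (d x) -
      tau (s x) (w x) ((d x : ℤ) - 2 ^ a x)) / 2 * zt (2 ^ (a x + 1)) (d x) else
      (tau (s x) (w x) (d x) + tau (s x) (w x) ((d x : ℤ) - 2 ^ a x)) / 2) :=
    CPT.iteBool hsg ((CPT.half (h1.sub h2)).mul h3) (CPT.half (h1.add h2))
  have h5 : CPT A (fun x => if d x = 0 then (if sg x then -(2 : ℂ) ^ (a x + 1) else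
      (2 : ℂ) ^ (a x + 1)) else 0) :=
    CPT.ite (hd.eqNat (PT.const 0)) (CPT.iteBool hsg hk.neg hk) CPT.zero
  exact (h4.add h5).congr fun x => by rw [tsy, tsym]

theorem cpt_lam {w sg : δ → Bool} (ha : PT A a) (hab : PBd (fun x => 2 ^ a x)) (hs : PT A s)
    (hw : PT A w) (hsg : PT A sg) (hv : PT A v) :
    CPT A (fun x => lam (a x) (s x) (w x) (sg x) (v x % 2 ^ a x)) := by
  have hab1 : PBd a := hab.mono fun x => (Nat.lt_two_pow_self (n := a x)).le
  have hR : PT A (fun x => 2 ^ a x) := PT.pow (PT.const 2) ha hab1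
  have ha' : PT A (fun q : δ × ℕ => a q.1) := ha.comp PT.fst'
  have hab' : PBd (fun q : δ × ℕ => a q.1) := PBd.comp (A := A) hab1 PT.fst'
  have h1 : CPT A (fun q : δ × ℕ => tsy (a q.1) (tau (s q.1) (w q.1)) (2 ^ (a q.1 + 1)) (sg q.1)
      q.2) := cpt_tsy ha' hab' (hs.comp PT.fst') (hw.comp PT.fst') (hsg.comp PT.fst') PT.snd'
  have h2 : PT A (fun q : δ × ℕ => fr (a q.1) (v q.1 % 2 ^ a q.1)) :=
    (pt_fr ha hab1 hv).comp PT.fst'
  have h3 : CPT A (fun q : δ × ℕ => zt (2 ^ a q.1)
      (-((q.2 * fr (a q.1) (v q.1 % 2 ^ a q.1) : ℕ) : ℤ))) :=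
    cpt_zt (hR.comp PT.fst') ((PT.snd'.mul h2).natCast.intNeg)
  exact (CPT.sumRange (z := fun x d => tsy (a x) (tau (s x) (w x)) (2 ^ (a x + 1)) (sg x) d *
    zt (2 ^ a x) (-((d * fr (a x) (v x % 2 ^ a x) : ℕ) : ℤ))) hR hab (h1.mul h3)).congr
    fun x => by rw [lam, lamc]

theorem pt_rb (ha : PT A a) (hab : PBd a) (hp : PT A p) : PT A (fun x => H352.rb (a x) (p x)) :=
  ((hp.div (PT.pow (PT.const 2) ha hab)).mod (PT.const 2)).eqNat (PT.const 1)

theorem pt_lo (ht : PT A t) (htb : PBd t) (hp : PT A p) :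
    PT A (fun x => decide (lo (t x) (p x))) :=
  (hp.mod (PT.pow (PT.const 2) (ht.add (PT.const 1)) (htb.add (PBd.const 1)))).lt
    (PT.pow (PT.const 2) ht htb)

end factors

/-! ### The value -/

/-- The value in terms of the data. -/
noncomputable def valT (a s k t : ℕ) (w sg : Bool) (p : ℕ) : ℂ :=
  if k = 0 then gA (min t a) p
  else if k = 1 then gB (min t a) p
  else if k = 2 then gB' (min t a) p
  else if k = 3 then zt (2 ^ (a + 1)) (if w then -((p % 2 ^ a : ℕ) : ℤ) else ((p % 2 ^ a : ℕ) : ℤ))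
  else if k = 4 then
    (if H352.rb a p = w then chp s w (p % 2 ^ a : ℕ) else chi s w (p % 2 ^ a : ℕ))
  else if k = 5 then
    (if H352.rb a p = w then chi s w (p % 2 ^ a : ℕ) else
      if p % 2 ^ a < s then chp s w (p % 2 ^ a : ℕ) else 0)
  else if k = 6 then (if H352.rb a p = w then lam a s w sg (p % 2 ^ a) else 1)
  else (if H352.rb a p = w then (lam a s w sg (p % 2 ^ a))⁻¹ else 1)

theorem lvc_eq_valT (a s : ℕ) (c : Dc) (p : ℕ) :
    lvc a s c p = valT a s (dcT c).1 (dcT c).2.1 (dcT c).2.2.1 (dcT c).2.2.2 p := by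
  cases c <;> rfl

theorem cpt_valT {a s k t p : δ → ℕ} {w sg : δ → Bool} (ha : PT A a)
    (hab : PBd (fun x => 2 ^ a x)) (hs : PT A s) (hs0 : ∀ x, 0 < s x) (hk : PT A k) (ht : PT A t)
    (hw : PT A w) (hsg : PT A sg) (hp : PT A p) :
    CPT A (fun x => valT (a x) (s x) (k x) (t x) (w x) (sg x) (p x)) := by
  have hab1 : PBd a := hab.mono fun x => (Nat.lt_two_pow_self (n := a x)).le
  have hR : PT A (fun x => 2 ^ a x) := PT.pow (PT.const 2) ha hab1
  have hm : PT A (fun x => min (t x) (a x)) := ht.min ha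
  have hmb : PBd (fun x => min (t x) (a x)) := hab1.mono fun x => min_le_right _ _
  have hm1 : PT A (fun x => min (t x) (a x) + 1) := hm.add (PT.const 1)
  have hm1b : PBd (fun x => min (t x) (a x) + 1) := hmb.add (PBd.const 1)
  have hlo := pt_lo hm hmb hp
  have hpm : PT A (fun x => p x % 2 ^ min (t x) (a x)) :=
    hp.mod (PT.pow (PT.const 2) hm hmb)
  have hq : PT A (fun x => p x % 2 ^ a x) := hp.mod hR
  have hrb : PT A (fun x => decide (H352.rb (a x) (p x) = w x)) :=
    ((PT.xor (pt_rb ha hab1 hp) hw).not).congr fun x => by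
      cases H352.rb (a x) (p x) <;> cases w x <;> rfl
  have hchp := cpt_chp hs hw hq.natCast
  have hchi := cpt_chi hs hw hq.natCast
  have hlam := cpt_lam ha hab hs hw hsg hp
  have hinv : CPT A (fun x => (lam (a x) (s x) (w x) (sg x) (p x % 2 ^ a x))⁻¹) := by
    refine hlam.inv (B := fun _ => 0) (PBd.const 0) fun x => ?_
    rw [pow_zero, one_mul]
    exact (one_le_pow₀ (by norm_num)).trans (le_norm_lam (hs0 x) _ _ _ _)
  refine CPT.ite (hk.eqNat (PT.const 0)) ?_ (CPT.ite (hk.eqNat (PT.const 1)) ?_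
    (CPT.ite (hk.eqNat (PT.const 2)) ?_ (CPT.ite (hk.eqNat (PT.const 3)) ?_
    (CPT.ite (hk.eqNat (PT.const 4)) ?_ (CPT.ite (hk.eqNat (PT.const 5)) ?_
    (CPT.ite (hk.eqNat (PT.const 6)) ?_ ?_))))))
  · exact (CPT.ite hlo CPT.one (CPT.intConst (-2))).congr fun x => by
      rw [gA]; push_cast; rfl
  · exact (CPT.ite hlo CPT.one (cpt_zt (PT.pow (PT.const 2) hm1 hm1b)
      hpm.natCast.intNeg)).congr fun x => by rw [gB]
  · exact (CPT.ite hlo (CPT.half CPT.one) (CPT.half (cpt_zt (PT.pow (PT.const 2) hm1 hm1b)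
      hpm.natCast))).congr fun x => by rw [gB']
  · refine cpt_zt (PT.pow (PT.const 2) (ha.add (PT.const 1)) (hab1.add (PBd.const 1))) ?_
    exact (PT.cond hw hq.natCast.intNeg hq.natCast).congr fun x => by cases w x <;> rfl
  · exact CPT.ite hrb hchp hchi
  · exact CPT.ite hrb hchi (CPT.ite (hq.lt hs) hchp CPT.zero)
  · exact CPT.ite hrb hlam CPT.one
  · exact CPT.ite hrb hinv CPT.one

/-- The values of the diagonal codes are approximable in polynomial time. -/
theorem cpt_lvc {a s p : δ → ℕ} {c : δ → Dc} (ha : PT A a) (hab : PBd (fun x => 2 ^ a x))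
    (hs : PT A s) (hs0 : ∀ x, 0 < s x) (hc : PT A c) (hp : PT A p) :
    CPT A (fun x => lvc (a x) (s x) (c x) (p x)) :=
  (cpt_valT ha hab hs hs0 (PT.dcT hc).fst (PT.dcT hc).snd.fst (PT.dcT hc).snd.snd.fst
    (PT.dcT hc).snd.snd.snd hp).congr fun _ => (lvc_eq_valT _ _ _ _).symm

end Vale.Agent.P338.R3.H900
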