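import Vale.Agent.P338.R3.H900.Prod
import Vale.Agent.P338.R2.H778.Bits

/-!
Export of approximable numbers as words of `b` bits (two's complement, most significant bit first).
-/

namespace Vale.Agent.P338.R3.H900

open Vale.Agent.Lib.PolyTime Function
open Vale.Agent.P338.R2.H778 (bits)

variable {A : Set Word} {α β γ δ : Type*} [Enc α] [Enc β] [Enc γ] [Enc δ]

theorem bits_eq_map (w : ℕ) : ∀ z : ℕ,
    bits w z = (List.range w).map fun i => z.testBit (w - 1 - i) := by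
  induction w with
  | zero => intro z; simp [bits]
  | succ w ih =>
    intro z
    rw [bits, ih, List.range_succ, List.map_append]
    congr 1
    · refine List.map_congr_left fun i hi => ?_
      have hi' := List.mem_range.1 hi
      have e : w + 1 - 1 - i = (w - 1 - i) + 1 := by omega
      rw [e, Nat.testBit_add_one]
    · simp [Nat.testBit_zero]

/-- The bits of a number. -/
theorem PT.bits {w z : α → ℕ} (hw : PT A w) (hwb : PBd w) (hz : PT A z) :
    PT A (fun a => bits (w a) (z a)) := by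
  refine (PT.map (l := fun a => List.range (w a)) (f := fun a i => (z a).testBit (w a - 1 - i))
    (PT.range hw hwb) ?_).congr fun a => (bits_eq_map _ _).symm
  exact (hz.comp PT.fst').testBit (((hw.comp PT.fst').sub (PT.const 1)).sub PT.snd')

/-- The word of `b` bits of an integer (`wz` of helper968). -/
def wordZ (b : ℕ) (z : ℤ) : List Bool := bits b (z % 2 ^ b).toNat

theorem PT.wordZ {b : α → ℕ} {z : α → ℤ} (hb : PT A b) (hbb : PBd b) (hz : PT A z) :
    PT A (fun a => wordZ (b a) (z a)) :=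
  PT.bits hb hbb ((hz.intMod (PT.intPow (PT.const 2) hb hbb)).toNat)

@[simp] theorem length_wordZ (b : ℕ) (z : ℤ) : (wordZ b z).length = b :=
  Vale.Agent.P338.R2.H778.length_bits _ _

theorem val_wordZ (b : ℕ) (z : ℤ) :
    (Vale.Agent.P338.R2.H778.val (wordZ b z) : ℤ) = z % 2 ^ b := by
  have h1 : 0 ≤ z % 2 ^ b := Int.emod_nonneg _ (by positivity)
  have h2 : z % 2 ^ b < 2 ^ b := Int.emod_lt_of_pos _ (by positivity)
  rw [wordZ, Vale.Agent.P338.R2.H778.val_bits_of_lt, Int.toNat_of_nonneg h1]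
  have : ((z % 2 ^ b).toNat : ℤ) < ((2 ^ b : ℕ) : ℤ) := by
    rw [Int.toNat_of_nonneg h1]; push_cast; exact h2
  exact_mod_cast this

/-- The signed value of the word of a small integer. -/
theorem bmod_val_wordZ {b : ℕ} {z : ℤ} (h : 2 * |z| < 2 ^ b) :
    Int.bmod (Vale.Agent.P338.R2.H778.val (wordZ b z) : ℤ) (2 ^ b) = z := by
  rw [val_wordZ]
  have e : (2 : ℤ) ^ b = ((2 ^ b : ℕ) : ℤ) := by push_cast; rfl
  rw [e, Int.emod_bmod]
  rw [e] at h
  rw [Int.bmod_def]
  generalize 2 ^ b = m at *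
  rw [← abs_two, ← abs_mul, abs_lt] at h
  by_cases hz : 0 ≤ z
  · rw [Int.emod_eq_of_lt hz (by omega), if_pos (by omega)]
  · have : z % (m : ℤ) = z + m := by
      rw [← Int.add_emod_right, Int.emod_eq_of_lt (by omega) (by omega)]
    rw [this, if_neg (by omega)]
    omega

/-- Export of a real number. -/
theorem RPT.export {x : α → ℝ} (hx : RPT A x) {s b : α → ℕ} (hs : PT A s) (hsb : PBd s)
    (hb : PT A b) (hbb : PBd b) :
    ∃ C : α → ℤ, PT A C ∧ PT A (fun a => wordZ (b a) (C a)) ∧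
      (∀ a, |(C a : ℝ) - 2 ^ s a * x a| ≤ 1) ∧
      ∀ a, 2 * (2 ^ s a * |x a| + 1) < 2 ^ b a →
        Int.bmod (Vale.Agent.P338.R2.H778.val (wordZ (b a) (C a)) : ℤ) (2 ^ b a) = C a := by
  obtain ⟨F, hF, hFx⟩ := hx
  have hC : PT A (fun a => F a (s a)) := pt_at hF PT.id hs hsb
  refine ⟨_, hC, PT.wordZ hb hbb hC, fun a => hFx a _, fun a h => bmod_val_wordZ ?_⟩
  have h1 := hFx a (s a)
  have h2 : |(F a (s a) : ℝ)| ≤ 2 ^ s a * |x a| + 1 := by
    calc |(F a (s a) : ℝ)| = |((F a (s a) : ℝ) - 2 ^ s a * x a) + 2 ^ s a * x a| := by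
          congr 1; ring
      _ ≤ |(F a (s a) : ℝ) - 2 ^ s a * x a| + |2 ^ s a * x a| := abs_add_le _ _
      _ ≤ _ := by rw [abs_mul, abs_of_pos (by positivity : (0 : ℝ) < 2 ^ s a)]; linarith
  have h3 : 2 * |(F a (s a) : ℝ)| < 2 ^ b a := by linarith
  exact_mod_cast h3

/-- Export of a complex number: a Gaussian integer and the words of its coordinates. -/
theorem CPT.export {z : α → ℂ} (hz : CPT A z) {s b : α → ℕ} (hs : PT A s) (hsb : PBd s)
    (hb : PT A b) (hbb : PBd b) :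
    ∃ C : α → ℤ × ℤ, PT A C ∧ PT A (fun a => wordZ (b a) (C a).1) ∧
      PT A (fun a => wordZ (b a) (C a).2) ∧
      (∀ a, |((C a).1 : ℝ) - 2 ^ s a * (z a).re| ≤ 1) ∧
      (∀ a, |((C a).2 : ℝ) - 2 ^ s a * (z a).im| ≤ 1) ∧
      ∀ a, 2 * (2 ^ s a * ‖z a‖ + 1) < 2 ^ b a →
        Int.bmod (Vale.Agent.P338.R2.H778.val (wordZ (b a) (C a).1) : ℤ) (2 ^ b a) = (C a).1 ∧
        Int.bmod (Vale.Agent.P338.R2.H778.val (wordZ (b a) (C a).2) : ℤ) (2 ^ b a) = (C a).2 := by
  obtain ⟨C, hC, hCw, hCx, hCb⟩ := hz.1.export hs hsb hb hbb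
  obtain ⟨D, hD, hDw, hDx, hDb⟩ := hz.2.export hs hsb hb hbb
  refine ⟨fun a => (C a, D a), hC.pair hD, hCw, hDw, hCx, hDx, fun a h => ⟨hCb a ?_, hDb a ?_⟩⟩
  · have h1 := Complex.abs_re_le_norm (z a)
    have h2 := mul_le_mul_of_nonneg_left h1 (by positivity : (0 : ℝ) ≤ 2 ^ s a)
    linarith
  · have h1 := Complex.abs_im_le_norm (z a)
    have h2 := mul_le_mul_of_nonneg_left h1 (by positivity : (0 : ℝ) ≤ 2 ^ s a)
    linarith

end Vale.Agent.P338.R3.H900
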