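import Vale.Agent.P338.R3.H900.Cpt

/-!
Products of approximable complex numbers over polynomially bounded ranges and lists.
-/

namespace Vale.Agent.P338.R3.H900

open Vale.Agent.Lib.PolyTime Function

variable {A : Set Word} {α β γ δ : Type*} [Enc α] [Enc β] [Enc γ] [Enc δ]

/-- The product in fixed point arithmetic, general form. -/
theorem mul_err' {N : ℤ} (hN0 : 0 < N) {x z : ℤ × ℤ} {e w : ℂ} {ε δ b c : ℝ} (hw : ‖w‖ ≤ b)
    (h1 : ‖toC x - N * e‖ ≤ ε) (h2 : ‖toC z - N * w‖ ≤ δ) (h3 : ‖toC x‖ ≤ c * N) :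
    ‖toC ((x.1 * z.1 - x.2 * z.2) / N, (x.1 * z.2 + x.2 * z.1) / N) - N * (e * w)‖ ≤
      ε * b + c * δ + 2 := by
  have hNr : (0 : ℝ) < N := by exact_mod_cast hN0
  have hNc : (N : ℂ) ≠ 0 := by exact_mod_cast hN0.ne'
  have hε : 0 ≤ ε := (norm_nonneg _).trans h1
  have hδ : 0 ≤ δ := (norm_nonneg _).trans h2
  have e1 : ‖toC ((x.1 * z.1 - x.2 * z.2) / N, (x.1 * z.2 + x.2 * z.1) / N) -
      toC x * toC z / N‖ ≤ 2 := by
    refine (norm_le_add _).trans ?_
    have h4 := abs_ediv_sub_le (x.1 * z.1 - x.2 * z.2) N hN0.ne'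
    have h5 := abs_ediv_sub_le (x.1 * z.2 + x.2 * z.1) N hN0.ne'
    have e2 : toC x * toC z / N = ⟨(x.1 * z.1 - x.2 * z.2) / N, (x.1 * z.2 + x.2 * z.1) / N⟩ := by
      rw [div_eq_iff hNc]
      apply Complex.ext
      · simp [toC]
        field_simp
      · simp [toC]
        field_simp
    rw [e2]
    simp only [toC, Complex.sub_re, Complex.sub_im]
    push_cast at h4 h5
    linarith
  have e3 : toC x * toC z / N - N * (e * w) = (toC x - N * e) * w + toC x / N * (toC z - N * w) := by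
    field_simp
    ring
  have h6 : ‖toC x * toC z / N - N * (e * w)‖ ≤ ε * b + c * δ := by
    rw [e3]
    refine (norm_add_le _ _).trans (add_le_add ?_ ?_)
    · rw [norm_mul]; exact mul_le_mul h1 hw (norm_nonneg _) hε
    · rw [norm_mul, norm_div]
      have h7 : ‖(N : ℂ)‖ = N := by
        rw [Complex.norm_intCast, abs_of_pos hNr]
      rw [h7]
      have h8 : ‖toC x‖ / N ≤ c := by rw [div_le_iff₀ hNr]; exact h3
      exact mul_le_mul h8 h2 (norm_nonneg _) ((by positivity : 0 ≤ ‖toC x‖ / N).trans h8)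
  have h7 := norm_add_le (toC ((x.1 * z.1 - x.2 * z.2) / N, (x.1 * z.2 + x.2 * z.1) / N) -
    toC x * toC z / N) (toC x * toC z / N - N * (e * w))
  have e4 : toC ((x.1 * z.1 - x.2 * z.2) / N, (x.1 * z.2 + x.2 * z.1) / N) -
    toC x * toC z / N + (toC x * toC z / N - N * (e * w)) =
    toC ((x.1 * z.1 - x.2 * z.2) / N, (x.1 * z.2 + x.2 * z.1) / N) - N * (e * w) := by ring
  rw [e4] at h7
  linarith

/-- Product in fixed point arithmetic, scale `N`. -/
def prodRec (N : ℤ) (Z : ℕ → ℤ × ℤ) (j : ℕ) : ℤ × ℤ :=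
  Nat.rec (motive := fun _ => ℤ × ℤ) (N, 0) (fun i X =>
    ((X.1 * (Z i).1 - X.2 * (Z i).2) / N, (X.1 * (Z i).2 + X.2 * (Z i).1) / N)) j

theorem prodRec_succ (N : ℤ) (Z : ℕ → ℤ × ℤ) (j : ℕ) : prodRec N Z (j + 1) =
    (((prodRec N Z j).1 * (Z j).1 - (prodRec N Z j).2 * (Z j).2) / N,
      ((prodRec N Z j).1 * (Z j).2 + (prodRec N Z j).2 * (Z j).1) / N) := rfl

theorem prodRec_err {N : ℤ} {Z : ℕ → ℤ × ℤ} {w : ℕ → ℂ} {B k : ℕ} (hN : 6 * k * 2 ^ (B * k) ≤ N)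
    (hN0 : 0 < N) (hw : ∀ i < k, ‖w i‖ ≤ 2 ^ B) (hZ : ∀ i < k, ‖toC (Z i) - N * w i‖ ≤ 2) (j : ℕ)
    (hj : j ≤ k) : ‖toC (prodRec N Z j) - N * ∏ i ∈ Finset.range j, w i‖ ≤ 6 * j * 2 ^ (B * j) ∧
      ‖toC (prodRec N Z j)‖ ≤ 2 * 2 ^ (B * j) * N := by
  have hNr : (0 : ℝ) < N := by exact_mod_cast hN0
  have hNr' : (6 : ℝ) * k * 2 ^ (B * k) ≤ N := by exact_mod_cast hN
  have hprod : ∀ j ≤ k, ‖∏ i ∈ Finset.range j, w i‖ ≤ 2 ^ (B * j) := by
    intro j hj
    rw [norm_prod]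
    calc ∏ i ∈ Finset.range j, ‖w i‖ ≤ ∏ i ∈ Finset.range j, (2 : ℝ) ^ B :=
          Finset.prod_le_prod (fun i _ => norm_nonneg _) fun i hi =>
            hw i (by have := Finset.mem_range.1 hi; omega)
      _ = _ := by rw [Finset.prod_const, Finset.card_range, pow_mul]
  have hsecond : ∀ j ≤ k, ‖toC (prodRec N Z j) - N * ∏ i ∈ Finset.range j, w i‖ ≤
      6 * j * 2 ^ (B * j) → ‖toC (prodRec N Z j)‖ ≤ 2 * 2 ^ (B * j) * N := by
    intro j hj h
    have h1 := norm_add_le (toC (prodRec N Z j) - N * ∏ i ∈ Finset.range j, w i)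
      (N * ∏ i ∈ Finset.range j, w i)
    rw [sub_add_cancel, norm_mul, Complex.norm_intCast, abs_of_pos hNr] at h1
    have h2 : (6 : ℝ) * j * 2 ^ (B * j) ≤ N := by
      refine le_trans ?_ hNr'
      have hj' : (j : ℝ) ≤ k := by exact_mod_cast hj
      have : (2 : ℝ) ^ (B * j) ≤ 2 ^ (B * k) :=
        pow_le_pow_right₀ (by norm_num) (Nat.mul_le_mul_left _ hj)
      apply mul_le_mul _ this (by positivity) (by positivity)
      linarith
    have h3 := mul_le_mul_of_nonneg_left (hprod j hj) hNr.le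
    have h4 : (1 : ℝ) ≤ 2 ^ (B * j) := one_le_pow₀ (by norm_num)
    nlinarith
  induction j with
  | zero =>
    have e : toC (prodRec N Z 0) = N := by
      apply Complex.ext <;> simp [toC, prodRec]
    have h0 : ‖toC (prodRec N Z 0) - N * ∏ i ∈ Finset.range 0, w i‖ ≤
        6 * (0 : ℕ) * 2 ^ (B * 0) := by rw [e]; simp
    exact ⟨h0, hsecond 0 hj h0⟩
  | succ j ih =>
    obtain ⟨ih1, ih2⟩ := ih (by omega)
    have h := mul_err' hN0 (hw j (by omega)) ih1 (hZ j (by omega)) ih2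
    rw [← Finset.prod_range_succ, ← prodRec_succ] at h
    have h5 : ‖toC (prodRec N Z (j + 1)) - N * ∏ i ∈ Finset.range (j + 1), w i‖ ≤
        6 * ((j + 1 : ℕ) : ℝ) * 2 ^ (B * (j + 1)) := by
      refine h.trans ?_
      have h6 : (2 : ℝ) ^ (B * (j + 1)) = 2 ^ (B * j) * 2 ^ B := by rw [mul_add, mul_one, pow_add]
      have h7 : (1 : ℝ) ≤ 2 ^ B := one_le_pow₀ (by norm_num)
      have h8 : (1 : ℝ) ≤ 2 ^ (B * j) := one_le_pow₀ (by norm_num)
      rw [h6]
      push_cast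
      nlinarith [mul_nonneg (by linarith : (0 : ℝ) ≤ 2 ^ (B * j)) (by linarith : (0 : ℝ) ≤ 2 ^ B - 1)]
    exact ⟨h5, hsecond (j + 1) hj h5⟩

theorem norm_toC_sub_le {x y : ℤ} {N : ℕ} {z : ℂ} (h1 : |(x : ℝ) - 2 ^ N * z.re| ≤ 1)
    (h2 : |(y : ℝ) - 2 ^ N * z.im| ≤ 1) : ‖toC (x, y) - ((2 ^ N : ℤ) : ℂ) * z‖ ≤ 2 := by
  refine (norm_le_add _).trans ?_
  have h : ((2 ^ N : ℤ) : ℂ) = ((2 ^ N : ℝ) : ℂ) := by push_cast; rfl
  rw [h, Complex.sub_re, Complex.sub_im, Complex.re_ofReal_mul, Complex.im_ofReal_mul]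
  simp only [toC]
  linarith

/-- Product over a polynomially bounded range. -/
theorem CPT.prodRange {k : α → ℕ} {z : α → ℕ → ℂ} (hk : PT A k) (hkb : PBd k)
    (hz : CPT A (fun p : α × ℕ => z p.1 p.2)) :
    CPT A (fun a => ∏ i ∈ Finset.range (k a), z a i) := by
  obtain ⟨B', hB', hB'b, hBz⟩ := hz.norm.exists_bound
  obtain ⟨c, hc⟩ := hB'b
  obtain ⟨B, hBe⟩ : ∃ B : α → ℕ, B = fun a => (2 * esize a + k a + 3) ^ c := ⟨_, rfl⟩
  have hB : PT A B := by
    rw [hBe]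
    exact ((((PT.const 2).mul (PT.size PT.id)).add hk).add (PT.const 3)).powConst c
  have hBb : PBd B := by
    rw [hBe]
    exact ((((PBd.const 2).mul PBd.esize).add hkb).add (PBd.const 3)).pow c
  have hBw : ∀ a, ∀ i < k a, ‖z a i‖ ≤ 2 ^ B a := by
    intro a i hi
    have h1 := hBz (a, i)
    have h2 := hc (a, i)
    rw [abs_of_nonneg (norm_nonneg _)] at h1
    refine h1.trans (pow_le_pow_right₀ (by norm_num) (h2.trans ?_))
    rw [hBe]
    refine Nat.pow_le_pow_left ?_ c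
    rw [esize_pair]
    have := esize_nat_le_self i
    omega
  clear hBe hBz hc hB' B' c
  obtain ⟨⟨F, hF, hFz⟩, ⟨G, hG, hGz⟩⟩ := hz
  have hk' : PT A (fun p : α × Un => k p.1) := hk.comp PT.fst'
  have hkb' : PBd (fun p : α × Un => k p.1) := PBd.comp (A := A) hkb PT.fst'
  have hB' : PT A (fun p : α × Un => B p.1) := hB.comp PT.fst'
  have hBb' : PBd (fun p : α × Un => B p.1) := PBd.comp (A := A) hBb PT.fst'
  have hs : PT A (fun p : α × Un => B p.1 * k p.1 + k p.1 + 4) := by fun_prop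
  have hsb : PBd (fun p : α × Un => B p.1 * k p.1 + k p.1 + 4) :=
    ((hBb'.mul hkb').add hkb').add (PBd.const 4)
  have hP : PT A (fun p : α × Un => p.2.v + (B p.1 * k p.1 + k p.1 + 4)) :=
    PT.snd'.unVal.add hs
  have hPb : PBd (fun p : α × Un => p.2.v + (B p.1 * k p.1 + k p.1 + 4)) :=
    (PBd.unVal (A := A) PT.snd').add hsb
  -- the error
  have herr : ∀ (a : α) (p : ℕ), ∀ j ≤ k a,
      ‖toC (prodRec (2 ^ (p + (B a * k a + k a + 4)))
        (fun i => (F (a, i) (p + (B a * k a + k a + 4)), G (a, i) (p + (B a * k a + k a + 4)))) j) -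
        ((2 ^ (p + (B a * k a + k a + 4)) : ℤ) : ℂ) * ∏ i ∈ Finset.range j, z a i‖ ≤
        6 * j * 2 ^ (B a * j) ∧
      ‖toC (prodRec (2 ^ (p + (B a * k a + k a + 4)))
        (fun i => (F (a, i) (p + (B a * k a + k a + 4)), G (a, i) (p + (B a * k a + k a + 4)))) j)‖ ≤
        2 * 2 ^ (B a * j) * ((2 ^ (p + (B a * k a + k a + 4)) : ℤ) : ℝ) := by
    intro a p j hj
    refine prodRec_err (B := B a) (k := k a) ?_ (by positivity) (hBw a)
      (fun i hi => norm_toC_sub_le (hFz (a, i) _) (hGz (a, i) _)) j hj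
    have h1 : (k a : ℤ) ≤ 2 ^ k a := by exact_mod_cast (Nat.lt_two_pow_self (n := k a)).le
    have h2 : (1 : ℤ) ≤ 2 ^ p := one_le_pow₀ (by norm_num)
    rw [pow_add 2 p, pow_add 2 (B a * k a + k a) 4, pow_add 2 (B a * k a)]
    have h3 : (0 : ℤ) < 2 ^ (B a * k a) := by positivity
    calc 6 * (k a : ℤ) * 2 ^ (B a * k a) ≤ 6 * 2 ^ k a * 2 ^ (B a * k a) := by gcongr
      _ ≤ 1 * (2 ^ (B a * k a) * 2 ^ k a * 2 ^ 4) := by
          have : (0 : ℤ) < 2 ^ k a := by positivity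
          nlinarith [mul_pos h3 this]
      _ ≤ 2 ^ p * (2 ^ (B a * k a) * 2 ^ k a * 2 ^ 4) := by gcongr
  have hfin : ∀ (a : α) (p : ℕ), 2 * ‖toC (prodRec (2 ^ (p + (B a * k a + k a + 4)))
        (fun i => (F (a, i) (p + (B a * k a + k a + 4)), G (a, i) (p + (B a * k a + k a + 4))))
        (k a)) -
        ((2 ^ (p + (B a * k a + k a + 4)) : ℤ) : ℂ) * ∏ i ∈ Finset.range (k a), z a i‖ ≤
        2 ^ (B a * k a + k a + 4) := by
    intro a p
    have h1 := (herr a p (k a) le_rfl).1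
    have h2 : (k a : ℝ) ≤ 2 ^ k a := by exact_mod_cast (Nat.lt_two_pow_self (n := k a)).le
    rw [pow_add 2 (B a * k a + k a) 4, pow_add 2 (B a * k a)]
    have h3 : (0 : ℝ) < 2 ^ (B a * k a) := by positivity
    have h4 : (6 : ℝ) * k a * 2 ^ (B a * k a) ≤ 6 * 2 ^ k a * 2 ^ (B a * k a) := by gcongr
    have h5 : (0 : ℝ) < 2 ^ k a := by positivity
    nlinarith [mul_pos h3 h5]
  have key : PT A (fun p : α × Un => prodRec (2 ^ (p.2.v + (B p.1 * k p.1 + k p.1 + 4)))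
        (fun i => (F (p.1, i) (p.2.v + (B p.1 * k p.1 + k p.1 + 4)),
          G (p.1, i) (p.2.v + (B p.1 * k p.1 + k p.1 + 4)))) (k p.1)) := by
    have hN : PT A (fun p : α × Un => (2 : ℤ) ^ (p.2.v + (B p.1 * k p.1 + k p.1 + 4))) :=
      pt_two_pow hP hPb
    have hP2 : PT A (fun q : (α × Un) × ℕ × (ℤ × ℤ) =>
        q.1.2.v + (B q.1.1 * k q.1.1 + k q.1.1 + 4)) := hP.comp PT.fst'
    have hPb2 : PBd (fun q : (α × Un) × ℕ × (ℤ × ℤ) =>
        q.1.2.v + (B q.1.1 * k q.1.1 + k q.1.1 + 4)) :=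
      PBd.comp (A := A) (b := fun p : α × Un => p.2.v + (B p.1 * k p.1 + k p.1 + 4)) hPb PT.fst'
    have hF2 : PT A (fun q : (α × Un) × ℕ × (ℤ × ℤ) =>
        F (q.1.1, q.2.1) (q.1.2.v + (B q.1.1 * k q.1.1 + k q.1.1 + 4))) :=
      pt_at hF ((PT.fst'.fst).pair PT.snd'.fst) hP2 hPb2
    have hG2 : PT A (fun q : (α × Un) × ℕ × (ℤ × ℤ) =>
        G (q.1.1, q.2.1) (q.1.2.v + (B q.1.1 * k q.1.1 + k q.1.1 + 4))) :=
      pt_at hG ((PT.fst'.fst).pair PT.snd'.fst) hP2 hPb2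
    have hN2 : PT A (fun q : (α × Un) × ℕ × (ℤ × ℤ) =>
        (2 : ℤ) ^ (q.1.2.v + (B q.1.1 * k q.1.1 + k q.1.1 + 4))) := hN.comp PT.fst'
    have hX : PT A (fun q : (α × Un) × ℕ × (ℤ × ℤ) => q.2.2.1) := by fun_prop
    have hY : PT A (fun q : (α × Un) × ℕ × (ℤ × ℤ) => q.2.2.2) := by fun_prop
    refine PT.natRec (init := fun p : α × Un => ((2 : ℤ) ^ (p.2.v + (B p.1 * k p.1 + k p.1 + 4)), (0 : ℤ)))
      (step := fun p i X =>
        ((X.1 * F (p.1, i) (p.2.v + (B p.1 * k p.1 + k p.1 + 4)) -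
            X.2 * G (p.1, i) (p.2.v + (B p.1 * k p.1 + k p.1 + 4))) /
              2 ^ (p.2.v + (B p.1 * k p.1 + k p.1 + 4)),
          (X.1 * G (p.1, i) (p.2.v + (B p.1 * k p.1 + k p.1 + 4)) +
            X.2 * F (p.1, i) (p.2.v + (B p.1 * k p.1 + k p.1 + 4))) /
              2 ^ (p.2.v + (B p.1 * k p.1 + k p.1 + 4)))) hk' hkb' (hN.pair (PT.const 0)) ?_
      (b := fun p => 3 * (B p.1 * k p.1 + (p.2.v + (B p.1 * k p.1 + k p.1 + 4)) + 5) + 1)
      ?_ fun p j hj => ?_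
    · exact (((hX.intMul hF2).intSub (hY.intMul hG2)).intDiv hN2).pair
        (((hX.intMul hG2).intAdd (hY.intMul hF2)).intDiv hN2)
    · exact ((PBd.const 3).mul (((hBb'.mul hkb').add hPb).add (PBd.const 5))).add (PBd.const 1)
    · have h1 := (herr p.1 p.2.v j hj).2
      have e : Nat.rec (motive := fun _ => ℤ × ℤ)
          ((2 : ℤ) ^ (p.2.v + (B p.1 * k p.1 + k p.1 + 4)), (0 : ℤ)) (fun i X =>
          ((X.1 * F (p.1, i) (p.2.v + (B p.1 * k p.1 + k p.1 + 4)) -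
            X.2 * G (p.1, i) (p.2.v + (B p.1 * k p.1 + k p.1 + 4))) /
              2 ^ (p.2.v + (B p.1 * k p.1 + k p.1 + 4)),
          (X.1 * G (p.1, i) (p.2.v + (B p.1 * k p.1 + k p.1 + 4)) +
            X.2 * F (p.1, i) (p.2.v + (B p.1 * k p.1 + k p.1 + 4))) /
              2 ^ (p.2.v + (B p.1 * k p.1 + k p.1 + 4)))) j =
          prodRec (2 ^ (p.2.v + (B p.1 * k p.1 + k p.1 + 4)))
            (fun i => (F (p.1, i) (p.2.v + (B p.1 * k p.1 + k p.1 + 4)),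
              G (p.1, i) (p.2.v + (B p.1 * k p.1 + k p.1 + 4)))) j := rfl
      rw [e]
      generalize prodRec (2 ^ (p.2.v + (B p.1 * k p.1 + k p.1 + 4)))
            (fun i => (F (p.1, i) (p.2.v + (B p.1 * k p.1 + k p.1 + 4)),
              G (p.1, i) (p.2.v + (B p.1 * k p.1 + k p.1 + 4)))) j = X at *
      clear e
      have h2 : ‖toC X‖ < 2 ^ (B p.1 * k p.1 + (p.2.v + (B p.1 * k p.1 + k p.1 + 4)) + 2) := by
        refine h1.trans_lt ?_
        have h3 : (2 : ℝ) ^ (B p.1 * j) ≤ 2 ^ (B p.1 * k p.1) :=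
          pow_le_pow_right₀ (by norm_num) (Nat.mul_le_mul_left _ hj)
        rw [pow_add 2 (B p.1 * k p.1 + (p.2.v + (B p.1 * k p.1 + k p.1 + 4))) 2,
          pow_add 2 (B p.1 * k p.1) (p.2.v + (B p.1 * k p.1 + k p.1 + 4))]
        push_cast
        have h4 : (0 : ℝ) < 2 ^ (p.2.v + (B p.1 * k p.1 + k p.1 + 4)) := by positivity
        have h5 : (0 : ℝ) < 2 ^ (B p.1 * k p.1) := by positivity
        nlinarith [mul_pos h4 h5, mul_le_mul_of_nonneg_right h3 h4.le]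
      have hx := esize_int_le ((Complex.abs_re_le_norm (toC X)).trans_lt h2)
      have hy := esize_int_le ((Complex.abs_im_le_norm (toC X)).trans_lt h2)
      have e : esize X = 2 * esize X.1 + esize X.2 + 1 := by rw [← esize_pair]
      rw [e]
      omega
  constructor
  · refine RPT.of_scaled (fun a p => (prodRec (2 ^ (p + (B a * k a + k a + 4)))
        (fun i => (F (a, i) (p + (B a * k a + k a + 4)), G (a, i) (p + (B a * k a + k a + 4))))
        (k a)).1) (fun a p => B a * k a + k a + 4) key.fst hs hsb fun a p => ?_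
    refine le_trans ?_ (hfin a p)
    have := Complex.abs_re_le_norm (toC (prodRec (2 ^ (p + (B a * k a + k a + 4)))
        (fun i => (F (a, i) (p + (B a * k a + k a + 4)), G (a, i) (p + (B a * k a + k a + 4))))
        (k a)) -
        ((2 ^ (p + (B a * k a + k a + 4)) : ℤ) : ℂ) * ∏ i ∈ Finset.range (k a), z a i)
    have h : ((2 ^ (p + (B a * k a + k a + 4)) : ℤ) : ℂ) =
      ((2 ^ (p + (B a * k a + k a + 4)) : ℝ) : ℂ) := by push_cast; rfl
    rw [h] at this ⊢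
    rw [Complex.sub_re, Complex.re_ofReal_mul] at this
    simp only [toC] at this ⊢
    linarith
  · refine RPT.of_scaled (fun a p => (prodRec (2 ^ (p + (B a * k a + k a + 4)))
        (fun i => (F (a, i) (p + (B a * k a + k a + 4)), G (a, i) (p + (B a * k a + k a + 4))))
        (k a)).2) (fun a p => B a * k a + k a + 4) key.snd hs hsb fun a p => ?_
    refine le_trans ?_ (hfin a p)
    have := Complex.abs_im_le_norm (toC (prodRec (2 ^ (p + (B a * k a + k a + 4)))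
        (fun i => (F (a, i) (p + (B a * k a + k a + 4)), G (a, i) (p + (B a * k a + k a + 4))))
        (k a)) -
        ((2 ^ (p + (B a * k a + k a + 4)) : ℤ) : ℂ) * ∏ i ∈ Finset.range (k a), z a i)
    have h : ((2 ^ (p + (B a * k a + k a + 4)) : ℤ) : ℂ) =
      ((2 ^ (p + (B a * k a + k a + 4)) : ℝ) : ℂ) := by push_cast; rfl
    rw [h] at this ⊢
    rw [Complex.sub_im, Complex.im_ofReal_mul] at this
    simp only [toC] at this ⊢
    linarith

/-- Power with a polynomially bounded exponent. -/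
theorem CPT.pow {z : α → ℂ} {k : α → ℕ} (hz : CPT A z) (hk : PT A k) (hkb : PBd k) :
    CPT A (fun a => z a ^ k a) :=
  (CPT.prodRange (z := fun a _ => z a) hk hkb (hz.comp PT.fst')).congr fun a => by
    rw [Finset.prod_const, Finset.card_range]

theorem CPT.powConst {z : α → ℂ} (hz : CPT A z) (k : ℕ) : CPT A (fun a => z a ^ k) :=
  hz.pow (PT.const k) (PBd.const k)

/-- Real products. -/
theorem RPT.prodRange {k : α → ℕ} {x : α → ℕ → ℝ} (hk : PT A k) (hkb : PBd k)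
    (hx : RPT A (fun p : α × ℕ => x p.1 p.2)) :
    RPT A (fun a => ∏ i ∈ Finset.range (k a), x a i) :=
  (CPT.prodRange (z := fun a i => (x a i : ℂ)) hk hkb (CPT.ofReal hx)).re.congr fun a => by
    rw [← Complex.ofReal_prod, Complex.ofReal_re]

theorem RPT.pow {x : α → ℝ} {k : α → ℕ} (hx : RPT A x) (hk : PT A k) (hkb : PBd k) :
    RPT A (fun a => x a ^ k a) :=
  (RPT.prodRange (x := fun a _ => x a) hk hkb (hx.comp PT.fst')).congr fun a => by
    rw [Finset.prod_const, Finset.card_range]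

end Vale.Agent.P338.R3.H900
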