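import Vale.Agent.P338.R3.H900.Root2

/-!
Complex numbers depending on a parameter which can be approximated in polynomial time.
-/

namespace Vale.Agent.P338.R3.H900

open Vale.Agent.Lib.PolyTime Function

variable {A : Set Word} {α β γ δ : Type*} [Enc α] [Enc β] [Enc γ] [Enc δ]

/-- The complex number `z a` can be approximated in polynomial time. -/
def CPT (A : Set Word) {α : Type*} [Enc α] (z : α → ℂ) : Prop :=
  RPT A (fun a => (z a).re) ∧ RPT A (fun a => (z a).im)

theorem CPT.congr {x y : α → ℂ} (hx : CPT A x) (h : ∀ a, x a = y a) : CPT A y := by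
  have : x = y := funext h
  rwa [← this]

theorem CPT.re {z : α → ℂ} (hz : CPT A z) : RPT A (fun a => (z a).re) := hz.1

theorem CPT.im {z : α → ℂ} (hz : CPT A z) : RPT A (fun a => (z a).im) := hz.2

theorem CPT.mk {x y : α → ℝ} (hx : RPT A x) (hy : RPT A y) : CPT A (fun a => (⟨x a, y a⟩ : ℂ)) :=
  ⟨hx, hy⟩

theorem CPT.comp {z : α → ℂ} (hz : CPT A z) {g : β → α} (hg : PT A g) :
    CPT A (fun b => z (g b)) := ⟨hz.1.comp hg, hz.2.comp hg⟩

theorem CPT.ofReal {x : α → ℝ} (hx : RPT A x) : CPT A (fun a => (x a : ℂ)) :=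
  ⟨hx.congr fun _ => (Complex.ofReal_re _).symm, RPT.zero.congr fun _ => (Complex.ofReal_im _).symm⟩

theorem CPT.int {f : α → ℤ} (hf : PT A f) : CPT A (fun a => (f a : ℂ)) :=
  (CPT.ofReal (RPT.int hf)).congr fun a => by push_cast; rfl

theorem CPT.nat {f : α → ℕ} (hf : PT A f) : CPT A (fun a => (f a : ℂ)) :=
  (CPT.ofReal (RPT.nat hf)).congr fun a => by push_cast; rfl

theorem CPT.intConst (n : ℤ) : CPT A (fun _ : α => (n : ℂ)) := CPT.int (PT.const n)

theorem CPT.zero : CPT A (fun _ : α => (0 : ℂ)) := (CPT.intConst 0).congr fun _ => by simp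

theorem CPT.one : CPT A (fun _ : α => (1 : ℂ)) := (CPT.intConst 1).congr fun _ => by simp

theorem CPT.I : CPT A (fun _ : α => Complex.I) :=
  ⟨RPT.zero.congr fun _ => Complex.I_re.symm, RPT.one.congr fun _ => Complex.I_im.symm⟩

theorem CPT.neg {z : α → ℂ} (hz : CPT A z) : CPT A (fun a => - z a) :=
  ⟨hz.1.neg.congr fun _ => rfl, hz.2.neg.congr fun _ => rfl⟩

theorem CPT.conj {z : α → ℂ} (hz : CPT A z) : CPT A (fun a => (starRingEnd ℂ) (z a)) :=
  ⟨hz.1, hz.2.neg⟩

theorem CPT.add {z w : α → ℂ} (hz : CPT A z) (hw : CPT A w) : CPT A (fun a => z a + w a) :=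
  ⟨(hz.1.add hw.1).congr fun _ => rfl, (hz.2.add hw.2).congr fun _ => rfl⟩

theorem CPT.sub {z w : α → ℂ} (hz : CPT A z) (hw : CPT A w) : CPT A (fun a => z a - w a) :=
  ⟨(hz.1.sub hw.1).congr fun _ => rfl, (hz.2.sub hw.2).congr fun _ => rfl⟩

theorem CPT.mul {z w : α → ℂ} (hz : CPT A z) (hw : CPT A w) : CPT A (fun a => z a * w a) :=
  ⟨((hz.1.mul hw.1).sub (hz.2.mul hw.2)).congr fun _ => (Complex.mul_re _ _).symm,
    ((hz.1.mul hw.2).add (hz.2.mul hw.1)).congr fun _ => (Complex.mul_im _ _).symm⟩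

theorem CPT.cond {c : α → Bool} {x y : α → ℂ} (hc : PT A c) (hx : CPT A x) (hy : CPT A y) :
    CPT A (fun a => bif c a then x a else y a) :=
  ⟨(RPT.cond hc hx.1 hy.1).congr fun a => by beta_reduce; cases c a <;> rfl,
    (RPT.cond hc hx.2 hy.2).congr fun a => by beta_reduce; cases c a <;> rfl⟩

theorem CPT.ite {c : α → Prop} [DecidablePred c] {x y : α → ℂ} (hc : PT A (fun a => decide (c a)))
    (hx : CPT A x) (hy : CPT A y) : CPT A (fun a => if c a then x a else y a) :=
  (CPT.cond hc hx hy).congr fun a => by by_cases h : c a <;> simp [h]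

theorem CPT.sumRange {k : α → ℕ} {z : α → ℕ → ℂ} (hk : PT A k) (hkb : PBd k)
    (hz : CPT A (fun p : α × ℕ => z p.1 p.2)) :
    CPT A (fun a => ∑ i ∈ Finset.range (k a), z a i) :=
  ⟨(RPT.sumRange (x := fun a i => (z a i).re) hk hkb hz.1).congr fun a => by rw [Complex.re_sum],
    (RPT.sumRange (x := fun a i => (z a i).im) hk hkb hz.2).congr fun a => by rw [Complex.im_sum]⟩

theorem CPT.sumList {l : α → List γ} {z : α → γ → ℂ} (hl : PT A l)
    (hz : CPT A (fun p : α × γ => z p.1 p.2)) :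
    CPT A (fun a => ((l a).map (z a)).sum) := by
  refine ⟨(RPT.sumList (x := fun a i => (z a i).re) hl hz.1).congr fun a => ?_,
    (RPT.sumList (x := fun a i => (z a i).im) hl hz.2).congr fun a => ?_⟩ <;> beta_reduce
  · induction l a with
    | nil => simp
    | cons c L ih => simp only [List.map_cons, List.sum_cons, Complex.add_re, ih]
  · induction l a with
    | nil => simp
    | cons c L ih => simp only [List.map_cons, List.sum_cons, Complex.add_im, ih]

theorem CPT.normSq {z : α → ℂ} (hz : CPT A z) : RPT A (fun a => Complex.normSq (z a)) :=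
  ((hz.1.mul hz.1).add (hz.2.mul hz.2)).congr fun _ => (Complex.normSq_apply _).symm

theorem CPT.norm {z : α → ℂ} (hz : CPT A z) : RPT A (fun a => ‖z a‖) :=
  hz.normSq.sqrt.congr fun _ => rfl

/-- Inverse of a number which is not too small. -/
theorem CPT.inv {z : α → ℂ} (hz : CPT A z) {B : α → ℕ} (hB : PBd B)
    (h : ∀ a, 1 ≤ 2 ^ B a * ‖z a‖) : CPT A (fun a => (z a)⁻¹) := by
  have h1 : RPT A (fun a => (Complex.normSq (z a))⁻¹) := by
    refine hz.normSq.inv (B := fun a => 2 * B a) ((PBd.const 2).mul hB) fun a => ?_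
    rw [abs_of_nonneg (Complex.normSq_nonneg _), Complex.normSq_eq_norm_sq, two_mul, pow_add]
    have h2 := h a
    calc (1 : ℝ) ≤ (2 ^ B a * ‖z a‖) * (2 ^ B a * ‖z a‖) :=
          one_le_mul_of_one_le_of_one_le h2 h2
      _ = _ := by ring
  exact (hz.conj.mul (CPT.ofReal h1)).congr fun a => by
    rw [Complex.inv_def]

theorem CPT.div {z w : α → ℂ} (hz : CPT A z) (hw : CPT A w) {B : α → ℕ} (hB : PBd B)
    (h : ∀ a, 1 ≤ 2 ^ B a * ‖w a‖) : CPT A (fun a => z a / w a) :=
  (hz.mul (hw.inv hB h)).congr fun _ => (div_eq_mul_inv _ _).symm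

theorem RPT.div {x y : α → ℝ} (hx : RPT A x) (hy : RPT A y) {B : α → ℕ} (hB : PBd B)
    (h : ∀ a, 1 ≤ 2 ^ B a * |y a|) : RPT A (fun a => x a / y a) :=
  (hx.mul (hy.inv hB h)).congr fun _ => (div_eq_mul_inv _ _).symm

theorem RPT.abs {x : α → ℝ} (hx : RPT A x) : RPT A (fun a => |x a|) :=
  (hx.mul hx).sqrt.congr fun _ => Real.sqrt_mul_self_eq_abs _

/-- Quotient by a natural number (with the convention `x / 0 = 0`). -/
theorem RPT.divNat {x : α → ℝ} (hx : RPT A x) {n : α → ℕ} (hn : PT A n) :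
    RPT A (fun a => x a / n a) := by
  have h1 : RPT A (fun a => x a / ((max (n a) 1 : ℕ) : ℝ)) := by
    refine hx.div (RPT.nat (hn.max (PT.const 1))) (B := fun _ => 0) (PBd.const 0) fun a => ?_
    rw [pow_zero, one_mul, abs_of_nonneg (by positivity)]
    exact_mod_cast le_max_right _ _
  refine (RPT.ite (hn.eqNat (PT.const 0)) RPT.zero h1).congr fun a => ?_
  by_cases h : n a = 0
  · simp [h]
  · rw [if_neg h, show max (n a) 1 = n a by omega]

theorem CPT.divNat {z : α → ℂ} (hz : CPT A z) {n : α → ℕ} (hn : PT A n) :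
    CPT A (fun a => z a / n a) :=
  ⟨(hz.1.divNat hn).congr fun a => (by
      rw [← Complex.ofReal_natCast, Complex.div_ofReal_re] : _ = (z a / (n a : ℂ)).re),
    (hz.2.divNat hn).congr fun a => (by
      rw [← Complex.ofReal_natCast, Complex.div_ofReal_im] : _ = (z a / (n a : ℂ)).im)⟩

/-- `exp (2 π i m / q)`. -/
theorem CPT.ex {m : α → ℤ} {q : α → ℕ} (hm : PT A m) (hq : PT A q) :
    CPT A (fun a => ex (2 * Real.pi * m a / q a)) := ⟨RPT.cos hm hq, RPT.sin hm hq⟩

theorem CPT.root {m : α → ℤ} {q : α → ℕ} (hm : PT A m) (hq : PT A q) :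
    CPT A (fun a => Complex.exp (2 * Real.pi * Complex.I * m a / q a)) :=
  (CPT.ex hm hq).congr fun a => by
    rw [ex_eq]; push_cast; congr 1; ring

theorem CPT.rootNat {m : α → ℕ} {q : α → ℕ} (hm : PT A m) (hq : PT A q) :
    CPT A (fun a => Complex.exp (2 * Real.pi * Complex.I * m a / q a)) :=
  (CPT.root hm.natCast hq).congr fun a => by push_cast; rfl

end Vale.Agent.P338.R3.H900
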