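import Vale.Agent.P338.R3.H900.Prod

/-!
More closure properties of approximable numbers: options, products over lists, inverses of
natural numbers, other forms of the roots of unity.
-/

namespace Vale.Agent.P338.R3.H900

open Vale.Agent.Lib.PolyTime Function

variable {A : Set Word} {α β γ δ : Type*} [Enc α] [Enc β] [Enc γ] [Enc δ]

/-- Case distinction on an option. -/
theorem RPT.optCase {o : α → Option γ} {x : α → ℝ} {y : α → γ → ℝ} (ho : PT A o) (hx : RPT A x)
    (hy : RPT A (fun p : α × γ => y p.1 p.2)) :
    RPT A (fun a => match o a with | none => x a | some c => y a c) := by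
  obtain ⟨F, hF, hFx⟩ := hx
  obtain ⟨G, hG, hGy⟩ := hy
  refine ⟨fun a p => match o a with | none => F a p | some c => G (a, c) p, ?_, fun a p => ?_⟩
  · exact PT.optCase (o := fun p : α × Un => o p.1) (f := fun p => F p.1 p.2.v)
      (g := fun p c => G (p.1, c) p.2.v) (ho.comp PT.fst') hF
      (hG.comp (((PT.fst'.fst).pair PT.snd').pair (PT.fst'.snd)))
  · beta_reduce
    rcases o a with _ | c
    · exact hFx a p
    · exact hGy (a, c) p

theorem CPT.optCase {o : α → Option γ} {x : α → ℂ} {y : α → γ → ℂ} (ho : PT A o) (hx : CPT A x)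
    (hy : CPT A (fun p : α × γ => y p.1 p.2)) :
    CPT A (fun a => match o a with | none => x a | some c => y a c) := by
  refine ⟨(RPT.optCase (y := fun a c => (y a c).re) ho hx.1 hy.1).congr fun a => ?_,
    (RPT.optCase (y := fun a c => (y a c).im) ho hx.2 hy.2).congr fun a => ?_⟩ <;>
  · beta_reduce
    rcases o a with _ | c <;> rfl

/-- Product over a list. -/
theorem CPT.prodList {l : α → List γ} {z : α → γ → ℂ} (hl : PT A l)
    (hz : CPT A (fun p : α × γ => z p.1 p.2)) :
    CPT A (fun a => ((l a).map (z a)).prod) := by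
  have h1 : CPT A (fun p : α × ℕ => match (l p.1)[p.2]? with | none => 1 | some c => z p.1 c) :=
    CPT.optCase (o := fun p : α × ℕ => (l p.1)[p.2]?) (y := fun p c => z p.1 c)
      (PT.getElem? (hl.comp PT.fst') PT.snd') CPT.one
      (hz.comp ((PT.fst'.fst).pair PT.snd'))
  refine (CPT.prodRange (z := fun a i => match (l a)[i]? with | none => 1 | some c => z a c)
    hl.length (PBd.length hl) h1).congr fun a => ?_
  induction l a with
  | nil => simp
  | cons c L ih =>
    rw [List.length_cons, Finset.prod_range_succ', List.map_cons, List.prod_cons, mul_comm]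
    simp only [List.getElem?_cons_succ, List.getElem?_cons_zero]
    rw [ih]

theorem RPT.prodList {l : α → List γ} {x : α → γ → ℝ} (hl : PT A l)
    (hx : RPT A (fun p : α × γ => x p.1 p.2)) :
    RPT A (fun a => ((l a).map (x a)).prod) := by
  refine (CPT.prodList (z := fun a c => (x a c : ℂ)) hl (CPT.ofReal hx)).re.congr fun a => ?_
  have : ((l a).map fun c => (x a c : ℂ)).prod = (((l a).map (x a)).prod : ℝ) := by
    induction l a with
    | nil => simp
    | cons c L ih => simp only [List.map_cons, List.prod_cons, ih]; push_cast; rfl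
  rw [this, Complex.ofReal_re]

/-- The form used by `zt`. -/
theorem CPT.expDiv {m : α → ℤ} {q : α → ℕ} (hm : PT A m) (hq : PT A q) :
    CPT A (fun a => Complex.exp (2 * Real.pi * Complex.I * ((m a : ℂ) / (q a : ℂ)))) :=
  (CPT.root hm hq).congr fun a => by
    congr 1; ring

theorem CPT.ratConst (r : ℚ) : CPT A (fun _ : α => (r : ℂ)) :=
  ((CPT.intConst r.num).divNat (n := fun _ => r.den) (PT.const _)).congr fun _ => by
    exact_mod_cast (Rat.num_div_den r)

theorem CPT.natInv {n : α → ℕ} (hn : PT A n) : CPT A (fun a => ((n a : ℂ))⁻¹) :=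
  (CPT.one.divNat hn).congr fun _ => one_div _

/-- `if` with a Boolean condition. -/
theorem CPT.iteBool {c : α → Bool} {x y : α → ℂ} (hc : PT A c) (hx : CPT A x) (hy : CPT A y) :
    CPT A (fun a => if c a then x a else y a) :=
  (CPT.cond hc hx hy).congr fun a => by by_cases h : c a = true <;> simp [h]

/-- Powers of two with a polynomially bounded exponent. -/
theorem CPT.twoPow {k : α → ℕ} (hk : PT A k) (hkb : PBd k) : CPT A (fun a => (2 : ℂ) ^ k a) :=
  (CPT.int (pt_two_pow hk hkb)).congr fun a => by push_cast; rfl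

/-- Division by a power of two. -/
theorem CPT.divTwoPow {z : α → ℂ} (hz : CPT A z) {k : α → ℕ} (hk : PT A k) (hkb : PBd k) :
    CPT A (fun a => z a / 2 ^ k a) :=
  (hz.divNat (PT.pow (PT.const 2) hk hkb)).congr fun a => by push_cast; rfl

end Vale.Agent.P338.R3.H900
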