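import Vale.Agent.Lib.PolyTime.Lists2
import Vale.Agent.Lib.PolyTime.Lists3
import Vale.Agent.Lib.PolyTime.Bitwise
import Vale.Agent.Lib.PolyTime.NatArith2

/-!
Integers in the typed polynomial time layer: sign and absolute value; closure lemmas.
-/

namespace Vale.Agent.Lib.PolyTime

open Function

variable {A : Set Word} {α β γ δ : Type*} [Enc α] [Enc β] [Enc γ] [Enc δ]

/-- Integers are encoded by the sign and the absolute value. -/
instance : Enc ℤ := ⟨fun z => enc (decide (z < 0), z.natAbs)⟩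

theorem enc_int (z : ℤ) : enc z = enc (decide (z < 0), z.natAbs) := rfl

theorem esize_int (z : ℤ) : esize z = Nat.size z.natAbs + 3 := by
  have : esize z = esize (decide (z < 0), z.natAbs) := rfl
  rw [this, esize_pair, esize_bool, esize_nat]
  ring

/-- A function with integer values is computable if its sign and its absolute value are. -/
theorem PT.int_of {f : α → ℤ} (h1 : PT A (fun a => decide (f a < 0)))
    (h2 : PT A (fun a => (f a).natAbs)) : PT A f := by
  obtain ⟨g, hg, hg'⟩ := h1.pair h2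
  exact ⟨g, hg, fun a => hg' a⟩

theorem PT.intAux {f : α → ℤ} (hf : PT A f) : PT A (fun a => (decide (f a < 0), (f a).natAbs)) := by
  obtain ⟨g, hg, hg'⟩ := hf
  exact ⟨g, hg, fun a => hg' a⟩

@[fun_prop]
theorem PT.natAbs {f : α → ℤ} (hf : PT A f) : PT A (fun a => (f a).natAbs) := hf.intAux.snd

theorem PT.intNeg' {f : α → ℤ} (hf : PT A f) : PT A (fun a => decide (f a < 0)) := hf.intAux.fst

@[fun_prop]
theorem PT.toNat {f : α → ℤ} (hf : PT A f) : PT A (fun a => (f a).toNat) :=
  (hf.intNeg'.cond (PT.const 0) hf.natAbs).congr fun a => by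
    by_cases h : f a < 0
    · simp only [h, decide_true, cond_true]; omega
    · simp only [h, decide_false, cond_false]; omega

@[fun_prop]
theorem PT.negToNat {f : α → ℤ} (hf : PT A f) : PT A (fun a => (- f a).toNat) :=
  (hf.intNeg'.cond hf.natAbs (PT.const 0)).congr fun a => by
    by_cases h : f a < 0
    · simp only [h, decide_true, cond_true]; omega
    · simp only [h, decide_false, cond_false]; omega

/-- Difference of two natural numbers as an integer. -/
theorem PT.subNat {f g : α → ℕ} (hf : PT A f) (hg : PT A g) :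
    PT A (fun a => (f a : ℤ) - (g a : ℤ)) := by
  refine PT.int_of ((hf.lt hg).congr fun a => ?_) (((hf.sub hg).add (hg.sub hf)).congr fun a => ?_)
  · exact decide_eq_decide.2 (by omega)
  · omega

@[fun_prop]
theorem PT.natCast {f : α → ℕ} (hf : PT A f) : PT A (fun a => (f a : ℤ)) :=
  (hf.subNat (PT.const 0)).congr fun a => by simp

@[fun_prop]
theorem PT.intNeg {f : α → ℤ} (hf : PT A f) : PT A (fun a => - f a) :=
  ((PT.negToNat hf).subNat (PT.toNat hf)).congr fun a => by omega

@[fun_prop]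
theorem PT.intAdd {f g : α → ℤ} (hf : PT A f) (hg : PT A g) : PT A (fun a => f a + g a) :=
  ((hf.toNat.add hg.toNat).subNat ((PT.negToNat hf).add (PT.negToNat hg))).congr fun a => by
    push_cast; omega

@[fun_prop]
theorem PT.intSub {f g : α → ℤ} (hf : PT A f) (hg : PT A g) : PT A (fun a => f a - g a) :=
  (hf.intAdd hg.intNeg).congr fun _ => by ring

@[fun_prop]
theorem PT.intMul {f g : α → ℤ} (hf : PT A f) (hg : PT A g) : PT A (fun a => f a * g a) :=
  (((hf.toNat.mul hg.toNat).add ((PT.negToNat hf).mul (PT.negToNat hg))).subNat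
    ((hf.toNat.mul (PT.negToNat hg)).add ((PT.negToNat hf).mul hg.toNat))).congr fun a => by
    obtain ⟨x, y, hx, hy, hxy⟩ : ∃ x y : ℤ, ((f a).toNat : ℤ) = x ∧ ((-f a).toNat : ℤ) = y ∧
      f a = x - y := ⟨_, _, rfl, rfl, by omega⟩
    obtain ⟨u, v, hu, hv, huv⟩ : ∃ u v : ℤ, ((g a).toNat : ℤ) = u ∧ ((-g a).toNat : ℤ) = v ∧
      g a = u - v := ⟨_, _, rfl, rfl, by omega⟩
    push_cast
    rw [hx, hy, hu, hv, hxy, huv]
    ring

theorem PT.intLt {f g : α → ℤ} (hf : PT A f) (hg : PT A g) :
    PT A (fun a => decide (f a < g a)) :=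
  (hf.intSub hg).intNeg'.congr fun a => decide_eq_decide.2 (by omega)

theorem PT.intLe {f g : α → ℤ} (hf : PT A f) (hg : PT A g) :
    PT A (fun a => decide (f a ≤ g a)) :=
  (hg.intLt hf).not.congr fun a => by
    rw [← _root_.decide_not]
    exact decide_eq_decide.2 not_lt

theorem PT.intEq {f g : α → ℤ} (hf : PT A f) (hg : PT A g) :
    PT A (fun a => decide (f a = g a)) :=
  ((hf.intLe hg).and (hg.intLe hf)).congr fun a => by
    rw [← Bool.decide_and]
    exact decide_eq_decide.2 le_antisymm_iff.symm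

/-- Floor division by a natural number. -/
@[fun_prop]
theorem PT.intDivNat {f : α → ℤ} {g : α → ℕ} (hf : PT A f) (hg : PT A g) :
    PT A (fun a => f a / (g a : ℤ)) := by
  have h1 : PT A (fun a => -((((f a).natAbs + g a - 1) / g a : ℕ) : ℤ)) :=
    (((hf.natAbs.add hg).sub (PT.const 1)).div hg).natCast.intNeg
  have h2 : PT A (fun a => (((f a).natAbs / g a : ℕ) : ℤ)) := (hf.natAbs.div hg).natCast
  refine (PT.cond hf.intNeg' h1 h2).congr fun a => ?_
  rcases Nat.eq_zero_or_pos (g a) with h0 | h0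
  · simp [h0]
  by_cases h : f a < 0
  · simp only [h, decide_true, cond_true]
    obtain ⟨n, hn⟩ : ∃ n : ℕ, f a = -(n : ℤ) := ⟨(f a).natAbs, by omega⟩
    have hn0 : 0 < n := by omega
    rw [hn, Int.natAbs_neg, Int.natAbs_natCast]
    symm
    have hg : (0 : ℤ) < g a := by exact_mod_cast h0
    rw [Int.ediv_eq_iff_of_pos hg]
    have e1 := Nat.div_add_mod (n + g a - 1) (g a)
    have e2 := Nat.mod_lt (n + g a - 1) h0
    generalize (n + g a - 1) / g a = Q at *
    generalize (n + g a - 1) % g a = R at *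
    have e3 : (g a : ℤ) * Q + R = n + g a - 1 := by
      have : ((g a * Q + R : ℕ) : ℤ) = ((n + g a - 1 : ℕ) : ℤ) := by rw [e1]
      push_cast [Nat.cast_sub (show 1 ≤ n + g a by omega)] at this
      linarith
    have e4 : (R : ℤ) < g a := by exact_mod_cast e2
    have e5 : (0 : ℤ) ≤ R := by positivity
    constructor <;> nlinarith
  · simp only [h, decide_false, cond_false]
    obtain ⟨n, hn⟩ : ∃ n : ℕ, f a = (n : ℤ) := ⟨(f a).natAbs, by omega⟩
    rw [hn, Int.natAbs_natCast]
    push_cast
    rfl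

@[fun_prop]
theorem PT.intDiv {f g : α → ℤ} (hf : PT A f) (hg : PT A g) : PT A (fun a => f a / g a) := by
  refine (PT.cond hg.intNeg' (hf.intDivNat hg.natAbs).intNeg (hf.intDivNat hg.natAbs)).congr
    fun a => ?_
  by_cases h : g a < 0
  · simp only [h, decide_true, cond_true]
    rw [← Int.ediv_neg]
    congr 1
    omega
  · simp only [h, decide_false, cond_false]
    congr 1
    omega

@[fun_prop]
theorem PT.intMod {f g : α → ℤ} (hf : PT A f) (hg : PT A g) : PT A (fun a => f a % g a) :=
  (hf.intSub (hg.intMul (hf.intDiv hg))).congr fun a => (Int.emod_def _ _).symm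

/-- Power with a polynomially bounded exponent. -/
theorem PT.intPow {f : α → ℤ} {g : α → ℕ} (hf : PT A f) (hg : PT A g) (hb : PBd g) :
    PT A (fun a => f a ^ g a) := by
  have h1 : PT A (fun a => (f a).natAbs ^ g a) := PT.pow hf.natAbs hg hb
  have h2 : PT A (fun a => decide (f a < 0) && decide (g a % 2 = 1)) := hf.intNeg'.and hg.odd
  refine (PT.cond h2 h1.natCast.intNeg h1.natCast).congr fun a => ?_
  by_cases h : f a < 0
  · have e : f a = -((f a).natAbs : ℤ) := by omega
    by_cases h' : g a % 2 = 1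
    · simp only [h, h', decide_true, Bool.and_self, cond_true]
      conv_rhs => rw [e]
      rw [(Nat.odd_iff.2 h').neg_pow]
      push_cast
      rfl
    · simp only [h, h', decide_true, decide_false, Bool.and_false, cond_false]
      conv_rhs => rw [e]
      rw [(Nat.even_iff.2 (by omega)).neg_pow]
      push_cast
      rfl
  · simp only [h, decide_false, Bool.false_and, cond_false]
    have e : f a = ((f a).natAbs : ℤ) := by omega
    conv_rhs => rw [e]
    push_cast
    rfl

@[fun_prop]
theorem PT.intPowConst {f : α → ℤ} (hf : PT A f) (k : ℕ) : PT A (fun a => f a ^ k) :=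
  PT.intPow hf (PT.const k) (PBd.const k)

/-- Sum of a list of integers. -/
@[fun_prop]
theorem PT.intListSum {l : α → List ℤ} (hl : PT A l) : PT A (fun a => (l a).sum) := by
  have h1 : PT A (fun a => ((l a).map (fun z => z.toNat)).sum) :=
    PT.sum (PT.map (f := fun _ z => z.toNat) hl PT.snd'.toNat)
  have h2 : PT A (fun a => ((l a).map (fun z => (-z).toNat)).sum) :=
    PT.sum (PT.map (f := fun _ z => (-z).toNat) hl (PT.negToNat PT.snd'))
  refine (h1.subNat h2).congr fun a => ?_
  induction l a with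
  | nil => simp
  | cons z l ih =>
    simp only [List.map_cons, List.sum_cons]
    push_cast
    have : z = (z.toNat : ℤ) - ((-z).toNat : ℤ) := by omega
    push_cast at ih
    rw [← ih]
    omega

theorem sum_map_range {M : Type*} [AddCommMonoid M] (f : ℕ → M) (n : ℕ) :
    ((List.range n).map f).sum = ∑ i ∈ Finset.range n, f i := by
  induction n with
  | zero => simp
  | succ n ih => rw [List.range_succ, Finset.sum_range_succ]; simp [ih]

/-- Sum over a list. -/
theorem PT.intSumMap {l : α → List γ} {f : α → γ → ℤ} (hl : PT A l)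
    (hf : PT A (fun p : α × γ => f p.1 p.2)) : PT A (fun a => ((l a).map (f a)).sum) :=
  (PT.map hl hf).intListSum

/-- Sum over a polynomially bounded range. -/
theorem PT.intSumRange {k : α → ℕ} {f : α → ℕ → ℤ} (hk : PT A k) (hkb : PBd k)
    (hf : PT A (fun p : α × ℕ => f p.1 p.2)) :
    PT A (fun a => ∑ i ∈ Finset.range (k a), f a i) :=
  (PT.intSumMap (PT.range hk hkb) hf).congr fun _ => sum_map_range _ _

theorem PT.natSumRange {k : α → ℕ} {f : α → ℕ → ℕ} (hk : PT A k) (hkb : PBd k)
    (hf : PT A (fun p : α × ℕ => f p.1 p.2)) :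
    PT A (fun a => ∑ i ∈ Finset.range (k a), f a i) :=
  (PT.sum (PT.map (PT.range hk hkb) hf)).congr fun _ => sum_map_range _ _

/-! ### Square roots -/

/-- Step of the binary search for the square root. -/
def sqrtSt (n : ℕ) (p : ℕ × ℕ) : ℕ × ℕ :=
  (if (p.1 + p.2) * (p.1 + p.2) ≤ n then p.1 + p.2 else p.1, p.2 / 2)

theorem sqrtSt_iterate (n : ℕ) (m : ℕ) (hm : n < 2 ^ m * 2 ^ m) (j : ℕ) (hj : j ≤ m) :
    ∃ r, (sqrtSt n)^[j] (0, 2 ^ m / 2) = (r, 2 ^ (m - j) / 2) ∧ r * r ≤ n ∧
      n < (r + 2 ^ (m - j)) * (r + 2 ^ (m - j)) := by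
  induction j with
  | zero => exact ⟨0, by simp, by simp, by simpa using hm⟩
  | succ j ih =>
    obtain ⟨r, e, h1, h2⟩ := ih (by omega)
    rw [iterate_succ_apply', e]
    obtain ⟨k, hk⟩ : ∃ k, m - j = k + 1 := ⟨m - j - 1, by omega⟩
    have hk' : m - (j + 1) = k := by omega
    rw [hk] at h2
    rw [hk, hk']
    have e2 : 2 ^ (k + 1) / 2 = 2 ^ k := by rw [pow_succ]; simp
    rw [e2]
    simp only [sqrtSt]
    by_cases h : (r + 2 ^ k) * (r + 2 ^ k) ≤ n
    · refine ⟨r + 2 ^ k, by rw [if_pos h], h, ?_⟩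
      have : r + 2 ^ k + 2 ^ k = r + 2 ^ (k + 1) := by rw [pow_succ]; ring
      rw [this]
      exact h2
    · exact ⟨r, by rw [if_neg h], h1, not_le.1 h⟩

@[fun_prop]
theorem PT.natSqrt {f : α → ℕ} (hf : PT A f) : PT A (fun a => Nat.sqrt (f a)) := by
  have hs : PT A (fun a => Nat.size (f a)) := hf.natSize
  have hsb : PBd (fun a => Nat.size (f a)) := hf.pbd.mono fun a => by rw [esize_nat]
  have hst : PT A (fun p : α × ℕ × ℕ => sqrtSt (f p.1) p.2) := by
    have h1 : PT A (fun p : α × ℕ × ℕ => p.2.1 + p.2.2) := by fun_prop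
    have h0 : PT A (fun p : α × ℕ × ℕ => f p.1) := hf.comp PT.fst'
    exact (PT.ite ((h1.mul h1).le h0) h1 (PT.snd'.fst)).pair (PT.snd'.snd.div (PT.const 2))
  have hi : PT A (fun a => ((0 : ℕ), 2 ^ Nat.size (f a) / 2)) :=
    (PT.const 0).pair ((PT.pow (PT.const 2) hs hsb).div (PT.const 2))
  have hn : ∀ a, f a < 2 ^ Nat.size (f a) * 2 ^ Nat.size (f a) := fun a => by
    have h1 := Nat.lt_size_self (f a)
    have h2 : 1 ≤ 2 ^ Nat.size (f a) := Nat.one_le_two_pow
    nlinarith
  have key := PT.iterate' (step := fun a p => sqrtSt (f a) p) hs hsb hi hst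
    (b := fun a => 2 * PolyTime.esize (f a) + (Nat.size (f a) + 1) + 1)
    (by have := hf.pbd; fun_prop) (fun a j hj => by
      obtain ⟨r, e, h1, h2⟩ := sqrtSt_iterate (f a) _ (hn a) j hj
      rw [e, esize_pair]
      have h3 : PolyTime.esize r ≤ PolyTime.esize (f a) := esize_nat_mono (by nlinarith)
      have h4 : PolyTime.esize (2 ^ (Nat.size (f a) - j) / 2) ≤ Nat.size (f a) + 1 :=
        esize_nat_le ((Nat.div_le_self _ _).trans_lt
          (Nat.pow_lt_pow_right (by norm_num) (by omega)))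
      omega)
  refine key.fst.congr fun a => ?_
  obtain ⟨r, e, h1, h2⟩ := sqrtSt_iterate (f a) _ (hn a) (Nat.size (f a)) le_rfl
  rw [e]
  simp only [Nat.sub_self, pow_zero] at h2
  exact Nat.eq_sqrt.2 ⟨h1, h2⟩

end Vale.Agent.Lib.PolyTime
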