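import Vale.Agent.P338.R3.H900.EncInt

/-!
Real numbers depending on a parameter which can be approximated in polynomial time
(the precision is given in unary): closure properties.
-/

namespace Vale.Agent.P338.R3.H900

open Vale.Agent.Lib.PolyTime Function

variable {A : Set Word} {α β γ δ : Type*} [Enc α] [Enc β] [Enc γ] [Enc δ]

/-- The real number `x a` can be approximated in polynomial time: some polynomial time computable
integer `F a p` is at distance at most one from `2 ^ p * x a` (`p` in unary). -/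
def RPT (A : Set Word) {α : Type*} [Enc α] (x : α → ℝ) : Prop :=
  ∃ F : α → ℕ → ℤ, PT A (fun p : α × Un => F p.1 p.2.v) ∧
    ∀ a p, |(F a p : ℝ) - 2 ^ p * x a| ≤ 1

theorem RPT.congr {x y : α → ℝ} (hx : RPT A x) (h : ∀ a, x a = y a) : RPT A y := by
  have : x = y := funext h
  rwa [← this]

/-- Evaluation of the approximation at a computed argument and a computed precision. -/
theorem pt_at {F : α → ℕ → ℤ} (hF : PT A (fun p : α × Un => F p.1 p.2.v)) {g : δ → α} {P : δ → ℕ}
    (hg : PT A g) (hP : PT A P) (hPb : PBd P) : PT A (fun d => F (g d) (P d)) :=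
  hF.comp (hg.pair (PT.mkUn hP hPb))

/-- Approximations with a larger scale and a larger error. -/
theorem RPT.of_scaled {x : α → ℝ} (F : α → ℕ → ℤ) (s : α → ℕ → ℕ)
    (hF : PT A (fun p : α × Un => F p.1 p.2.v)) (hs : PT A (fun p : α × Un => s p.1 p.2.v))
    (hsb : PBd (fun p : α × Un => s p.1 p.2.v))
    (h : ∀ a p, 2 * |(F a p : ℝ) - 2 ^ (p + s a p) * x a| ≤ 2 ^ s a p) : RPT A x := by
  refine ⟨fun a p => (2 * F a p + 2 ^ s a p) / ((2 ^ (s a p + 1) : ℕ) : ℤ), ?_, fun a p => ?_⟩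
  · refine PT.intDivNat (((PT.const (2 : ℤ)).intMul hF).intAdd
      (PT.intPow (PT.const (2 : ℤ)) hs hsb)) ?_
    exact PT.pow (PT.const 2) (hs.add (PT.const 1)) (hsb.add (PBd.const 1))
  · have h1 := h a p
    beta_reduce
    generalize s a p = s at *
    set z : ℤ := 2 * F a p + 2 ^ s with hz
    have h2 := Int.mul_ediv_add_emod z ((2 ^ (s + 1) : ℕ) : ℤ)
    have h3 : 0 ≤ z % ((2 ^ (s + 1) : ℕ) : ℤ) := Int.emod_nonneg _ (by positivity)
    have h4 : z % ((2 ^ (s + 1) : ℕ) : ℤ) < ((2 ^ (s + 1) : ℕ) : ℤ) :=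
      Int.emod_lt_of_pos _ (by positivity)
    generalize z / ((2 ^ (s + 1) : ℕ) : ℤ) = Q at *
    generalize z % ((2 ^ (s + 1) : ℕ) : ℤ) = R at *
    have h2' : (2 ^ (s + 1) : ℝ) * Q + R = 2 * F a p + 2 ^ s := by
      have := congrArg (fun t : ℤ => (t : ℝ)) (h2.trans hz)
      push_cast at this
      linarith
    have h3' : (0 : ℝ) ≤ R := by exact_mod_cast h3
    have h4' : (R : ℝ) < 2 ^ (s + 1) := by exact_mod_cast h4
    have hpos : (0 : ℝ) < 2 ^ s := by positivity
    rw [pow_add] at h1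
    rw [pow_succ] at h2' h4'
    rw [abs_le]
    rw [← abs_two, ← abs_mul, abs_le, abs_two] at h1
    obtain ⟨h5, h6⟩ := h1
    constructor
    · by_contra hc
      rw [not_le] at hc
      have : (2 ^ s : ℝ) * (Q - 2 ^ p * x a) < 2 ^ s * (-1) := mul_lt_mul_of_pos_left hc hpos
      nlinarith
    · by_contra hc
      rw [not_le] at hc
      have : (2 ^ s : ℝ) * 1 < 2 ^ s * (Q - 2 ^ p * x a) := mul_lt_mul_of_pos_left hc hpos
      nlinarith

/-- A general form: the approximation is computed from a tuple of parameters. -/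
theorem RPT.comp {x : α → ℝ} (hx : RPT A x) {g : β → α} (hg : PT A g) :
    RPT A (fun b => x (g b)) := by
  obtain ⟨F, hF, hFx⟩ := hx
  exact ⟨fun b p => F (g b) p, hF.comp ((hg.comp PT.fst').pair PT.snd'), fun b p => hFx _ _⟩

theorem RPT.int {f : α → ℤ} (hf : PT A f) : RPT A (fun a => (f a : ℝ)) :=
  ⟨fun a p => 2 ^ p * f a, (PT.intPow (PT.const (2 : ℤ)) PT.snd'.unVal
    (PBd.unVal (A := A) PT.snd')).intMul (hf.comp PT.fst'), fun a p => by push_cast; simp⟩

theorem RPT.nat {f : α → ℕ} (hf : PT A f) : RPT A (fun a => (f a : ℝ)) :=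
  (RPT.int hf.natCast).congr fun a => by simp

theorem RPT.intConst (n : ℤ) : RPT A (fun _ : α => (n : ℝ)) := RPT.int (PT.const n)

theorem RPT.zero : RPT A (fun _ : α => (0 : ℝ)) := (RPT.intConst 0).congr fun _ => by simp

theorem RPT.one : RPT A (fun _ : α => (1 : ℝ)) := (RPT.intConst 1).congr fun _ => by simp

theorem RPT.neg {x : α → ℝ} (hx : RPT A x) : RPT A (fun a => - x a) := by
  obtain ⟨F, hF, hFx⟩ := hx
  refine ⟨fun a p => - F a p, hF.intNeg, fun a p => ?_⟩
  have := hFx a p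
  rw [← abs_neg]
  convert this using 2
  push_cast
  ring

theorem RPT.cond {c : α → Bool} {x y : α → ℝ} (hc : PT A c) (hx : RPT A x) (hy : RPT A y) :
    RPT A (fun a => bif c a then x a else y a) := by
  obtain ⟨F, hF, hFx⟩ := hx
  obtain ⟨G, hG, hGy⟩ := hy
  refine ⟨fun a p => bif c a then F a p else G a p, PT.cond (hc.comp PT.fst') hF hG,
    fun a p => ?_⟩
  by_cases h : c a = true
  · simpa [h] using hFx a p
  · simp only [Bool.not_eq_true] at h
    simpa [h] using hGy a p

theorem RPT.ite {c : α → Prop} [DecidablePred c] {x y : α → ℝ} (hc : PT A (fun a => decide (c a)))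
    (hx : RPT A x) (hy : RPT A y) : RPT A (fun a => if c a then x a else y a) :=
  (RPT.cond hc hx hy).congr fun a => by by_cases h : c a <;> simp [h]

/-- Precision arguments. -/
theorem pbd_un_add (c : ℕ) : PBd (fun p : α × Un => p.2.v + c) :=
  (PBd.unVal (A := ∅) PT.snd').add (PBd.const c)

theorem RPT.add {x y : α → ℝ} (hx : RPT A x) (hy : RPT A y) : RPT A (fun a => x a + y a) := by
  obtain ⟨F, hF, hFx⟩ := hx
  obtain ⟨G, hG, hGy⟩ := hy
  have hP : PT A (fun p : α × Un => p.2.v + 2) := PT.snd'.unVal.add (PT.const 2)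
  refine RPT.of_scaled (fun a p => F a (p + 2) + G a (p + 2)) (fun _ _ => 2) ?_ (PT.const 2)
    (PBd.const 2) fun a p => ?_
  · exact (pt_at hF PT.fst' hP (pbd_un_add 2)).intAdd (pt_at hG PT.fst' hP (pbd_un_add 2))
  · have h1 := hFx a (p + 2)
    have h2 := hGy a (p + 2)
    push_cast
    have h3 : (F a (p + 2) : ℝ) + G a (p + 2) - 2 ^ (p + 2) * (x a + y a) =
      ((F a (p + 2) : ℝ) - 2 ^ (p + 2) * x a) + ((G a (p + 2) : ℝ) - 2 ^ (p + 2) * y a) := by ring
    rw [h3]
    have := abs_add_le ((F a (p + 2) : ℝ) - 2 ^ (p + 2) * x a)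
      ((G a (p + 2) : ℝ) - 2 ^ (p + 2) * y a)
    norm_num
    linarith

theorem RPT.sub {x y : α → ℝ} (hx : RPT A x) (hy : RPT A y) : RPT A (fun a => x a - y a) :=
  (hx.add hy.neg).congr fun a => by ring

/-- An approximable number is at most exponential in a polynomial. -/
theorem RPT.exists_bound {x : α → ℝ} (hx : RPT A x) :
    ∃ B : α → ℕ, PT A B ∧ PBd B ∧ ∀ a, |x a| ≤ 2 ^ B a := by
  obtain ⟨F, hF, hFx⟩ := hx
  have h0 : PT A (fun a => F a 0) := pt_at hF PT.id (PT.const 0) (PBd.const 0)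
  have h1 : PT A (fun a => Nat.size (F a 0).natAbs + 1) := h0.natAbs.natSize.add (PT.const 1)
  refine ⟨_, h1, ?_, fun a => ?_⟩
  · refine (h0.natAbs.pbd.mono (b' := fun a => Nat.size (F a 0).natAbs) fun a => ?_).add
      (PBd.const 1)
    rw [esize_nat]
  · have h2 := hFx a 0
    have h3 : |x a| ≤ |(F a 0 : ℝ)| + 1 := by
      have : x a = F a 0 - (F a 0 - 2 ^ 0 * x a) := by ring
      calc |x a| = |(F a 0 : ℝ) - (F a 0 - 2 ^ 0 * x a)| := by rw [← this]
        _ ≤ |(F a 0 : ℝ)| + |(F a 0 : ℝ) - 2 ^ 0 * x a| := abs_sub _ _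
        _ ≤ _ := by linarith
    have h4 : |(F a 0 : ℝ)| < 2 ^ Nat.size (F a 0).natAbs := by
      have := Nat.lt_size_self (F a 0).natAbs
      have h5 : ((F a 0).natAbs : ℝ) = |(F a 0 : ℝ)| := by
        rw [Nat.cast_natAbs]; simp
      rw [← h5]
      exact_mod_cast this
    have h6 : (1 : ℝ) ≤ 2 ^ Nat.size (F a 0).natAbs := one_le_pow₀ (by norm_num)
    rw [pow_succ]
    linarith

theorem RPT.mul {x y : α → ℝ} (hx : RPT A x) (hy : RPT A y) : RPT A (fun a => x a * y a) := by
  obtain ⟨B, hB, hBb, hBx⟩ := hx.exists_bound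
  obtain ⟨C, hC, hCb, hCy⟩ := hy.exists_bound
  obtain ⟨F, hF, hFx⟩ := hx
  obtain ⟨G, hG, hGy⟩ := hy
  have hB' : PT A (fun p : α × Un => B p.1) := hB.comp PT.fst'
  have hC' : PT A (fun p : α × Un => C p.1) := hC.comp PT.fst'
  have hBb' : PBd (fun p : α × Un => B p.1) := PBd.comp (A := A) hBb PT.fst'
  have hCb' : PBd (fun p : α × Un => C p.1) := PBd.comp (A := A) hCb PT.fst'
  have hP : PT A (fun p : α × Un => p.2.v + (B p.1 + C p.1 + 3)) := by fun_prop
  have hPb : PBd (fun p : α × Un => p.2.v + (B p.1 + C p.1 + 3)) :=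
    (PBd.unVal (A := A) PT.snd').add ((hBb'.add hCb').add (PBd.const 3))
  refine RPT.of_scaled (fun a p => F a (p + (B a + C a + 3)) * G a (p + (B a + C a + 3)))
    (fun a p => (B a + C a + 3) + (p + (B a + C a + 3))) ?_ (by fun_prop)
    (((hBb'.add hCb').add (PBd.const 3)).add hPb) fun a p => ?_
  · exact (pt_at hF PT.fst' hP hPb).intMul (pt_at hG PT.fst' hP hPb)
  · have h1 := hFx a (p + (B a + C a + 3))
    have h2 := hGy a (p + (B a + C a + 3))
    have h3 := hBx a
    have h4 := hCy a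
    generalize hf : (F a (p + (B a + C a + 3)) : ℝ) = f at *
    generalize hg : (G a (p + (B a + C a + 3)) : ℝ) = g at *
    push_cast
    rw [hf, hg]
    set N : ℝ := 2 ^ (p + (B a + C a + 3)) with hN
    have hN0 : (1 : ℝ) ≤ N := one_le_pow₀ (by norm_num)
    have hB1 : (1 : ℝ) ≤ 2 ^ B a := one_le_pow₀ (by norm_num)
    have hC1 : (1 : ℝ) ≤ 2 ^ C a := one_le_pow₀ (by norm_num)
    have e1 : (2 : ℝ) ^ (p + ((B a + C a + 3) + (p + (B a + C a + 3)))) = N * N := by
      rw [hN, ← pow_add]; congr 1; ring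
    have e2 : (2 : ℝ) ^ ((B a + C a + 3) + (p + (B a + C a + 3))) =
        2 ^ B a * 2 ^ C a * 8 * N := by
      rw [hN, pow_add, pow_add, pow_add]; norm_num
    rw [e1, e2]
    have e3 : f * g - N * N * (x a * y a) = (f - N * x a) * g + N * x a * (g - N * y a) := by ring
    have h5 : |g| ≤ N * 2 ^ C a + 1 := by
      calc |g| = |(g - N * y a) + N * y a| := by congr 1; ring
        _ ≤ |g - N * y a| + |N * y a| := abs_add_le _ _
        _ ≤ 1 + N * 2 ^ C a := by
            rw [abs_mul, abs_of_pos (by linarith : (0 : ℝ) < N)]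
            have := mul_le_mul_of_nonneg_left h4 (by linarith : (0 : ℝ) ≤ N)
            linarith
        _ = _ := by ring
    have h6 : |f * g - N * N * (x a * y a)| ≤ 1 * (N * 2 ^ C a + 1) + N * 2 ^ B a * 1 := by
      rw [e3]
      refine (abs_add_le _ _).trans (add_le_add ?_ ?_)
      · rw [abs_mul]
        exact mul_le_mul h1 h5 (abs_nonneg _) (by norm_num)
      · rw [abs_mul, abs_mul, abs_of_pos (by linarith : (0 : ℝ) < N)]
        exact mul_le_mul (mul_le_mul_of_nonneg_left h3 (by linarith)) h2 (abs_nonneg _)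
          (by positivity)
    have h7 : N * 2 ^ C a ≤ 2 ^ B a * 2 ^ C a * N := by
      have := mul_le_mul_of_nonneg_right hB1 (by positivity : (0 : ℝ) ≤ 2 ^ C a * N)
      nlinarith
    have h8 : N * 2 ^ B a ≤ 2 ^ B a * 2 ^ C a * N := by
      have := mul_le_mul_of_nonneg_right hC1 (by positivity : (0 : ℝ) ≤ 2 ^ B a * N)
      nlinarith
    have h9 : 1 ≤ 2 ^ B a * 2 ^ C a * N := by
      have := one_le_mul_of_one_le_of_one_le (one_le_mul_of_one_le_of_one_le hB1 hC1) hN0
      exact this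
    linarith

/-- Sum over a polynomially bounded range. -/
theorem RPT.sumRange {k : α → ℕ} {x : α → ℕ → ℝ} (hk : PT A k) (hkb : PBd k)
    (hx : RPT A (fun p : α × ℕ => x p.1 p.2)) :
    RPT A (fun a => ∑ i ∈ Finset.range (k a), x a i) := by
  obtain ⟨F, hF, hFx⟩ := hx
  have hk' : PT A (fun p : α × Un => k p.1 + 1) := (hk.comp PT.fst').add (PT.const 1)
  have hkb' : PBd (fun p : α × Un => k p.1 + 1) := (PBd.comp (A := A) hkb PT.fst').add (PBd.const 1)
  have hP : PT A (fun q : (α × Un) × ℕ => q.1.2.v + (k q.1.1 + 1)) :=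
    (PT.fst'.snd.unVal).add (hk'.comp PT.fst')
  have hPb : PBd (fun q : (α × Un) × ℕ => q.1.2.v + (k q.1.1 + 1)) :=
    (PBd.unVal (A := A) PT.fst'.snd).add (PBd.comp (A := A) (b := fun p : α × Un => k p.1 + 1)
      hkb' PT.fst')
  refine RPT.of_scaled (fun a p => ∑ i ∈ Finset.range (k a), F (a, i) (p + (k a + 1)))
    (fun a p => k a + 1) ?_ hk' hkb' fun a p => ?_
  · exact PT.intSumRange (f := fun (p : α × Un) i => F (p.1, i) (p.2.v + (k p.1 + 1)))
      (hk.comp PT.fst') (PBd.comp (A := A) hkb PT.fst')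
      (pt_at hF ((PT.fst'.fst).pair PT.snd') hP hPb)
  · push_cast
    rw [Finset.mul_sum, ← Finset.sum_sub_distrib]
    have h1 : |∑ i ∈ Finset.range (k a), ((F (a, i) (p + (k a + 1)) : ℝ) -
        2 ^ (p + (k a + 1)) * x a i)| ≤ ∑ i ∈ Finset.range (k a), (1 : ℝ) :=
      (Finset.abs_sum_le_sum_abs _ _).trans (Finset.sum_le_sum fun i _ => hFx (a, i) _)
    rw [Finset.sum_const, Finset.card_range, nsmul_eq_mul, mul_one] at h1
    have h2 : (k a : ℝ) ≤ 2 ^ k a := by exact_mod_cast (Nat.lt_two_pow_self (n := k a)).le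
    rw [pow_succ]
    linarith

/-- Sum over a list. -/
theorem RPT.sumList {l : α → List γ} {x : α → γ → ℝ} (hl : PT A l)
    (hx : RPT A (fun p : α × γ => x p.1 p.2)) :
    RPT A (fun a => ((l a).map (x a)).sum) := by
  obtain ⟨F, hF, hFx⟩ := hx
  have hk : PT A (fun a => (l a).length) := hl.length
  have hkb : PBd (fun a => (l a).length) := PBd.length hl
  have hk' : PT A (fun p : α × Un => (l p.1).length + 1) := (hk.comp PT.fst').add (PT.const 1)
  have hkb' : PBd (fun p : α × Un => (l p.1).length + 1) :=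
    (PBd.comp (A := A) hkb PT.fst').add (PBd.const 1)
  have hP : PT A (fun q : (α × Un) × γ => q.1.2.v + ((l q.1.1).length + 1)) :=
    (PT.fst'.snd.unVal).add (hk'.comp PT.fst')
  have hPb : PBd (fun q : (α × Un) × γ => q.1.2.v + ((l q.1.1).length + 1)) :=
    (PBd.unVal (A := A) PT.fst'.snd).add (PBd.comp (A := A)
      (b := fun p : α × Un => (l p.1).length + 1) hkb' PT.fst')
  refine RPT.of_scaled (fun a p => ((l a).map fun c => F (a, c) (p + ((l a).length + 1))).sum)
    (fun a p => (l a).length + 1) ?_ hk' hkb' fun a p => ?_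
  · exact PT.intSumMap (l := fun p : α × Un => l p.1)
      (f := fun (p : α × Un) c => F (p.1, c) (p.2.v + ((l p.1).length + 1)))
      (hl.comp PT.fst') (pt_at hF ((PT.fst'.fst).pair PT.snd') hP hPb)
  · have h1 : ∀ (m : ℕ) (L : List γ), |(((L.map fun c => F (a, c) m).sum : ℤ) : ℝ) -
        2 ^ m * (L.map (x a)).sum| ≤ L.length := by
      intro m L
      induction L with
      | nil => simp
      | cons c L ih =>
        simp only [List.map_cons, List.sum_cons, List.length_cons]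
        push_cast at ih ⊢
        have e : ∀ u v w z : ℝ, u + v - 2 ^ m * (w + z) = (u - 2 ^ m * w) + (v - 2 ^ m * z) :=
          fun u v w z => by ring
        rw [e]
        refine (abs_add_le _ _).trans ?_
        have := hFx (a, c) m
        linarith
    have h2 := h1 (p + ((l a).length + 1)) (l a)
    have h3 : ((l a).length : ℝ) ≤ 2 ^ (l a).length := by
      exact_mod_cast (Nat.lt_two_pow_self (n := (l a).length)).le
    rw [pow_succ 2 (l a).length]
    linarith

theorem abs_sqrt_sub_sqrt_le (u v : ℝ) : |Real.sqrt u - Real.sqrt v| ≤ Real.sqrt |u - v| := by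
  have key : ∀ u v : ℝ, v ≤ u → Real.sqrt u - Real.sqrt v ≤ Real.sqrt |u - v| := by
    intro u v h
    have h1 : Real.sqrt u ≤ Real.sqrt v + Real.sqrt |u - v| := by
      rw [Real.sqrt_le_left (by positivity)]
      rcases le_or_gt 0 v with hv | hv
      · have h2 := Real.sq_sqrt hv
        have h3 := Real.sq_sqrt (abs_nonneg (u - v))
        have h4 : |u - v| = u - v := abs_of_nonneg (by linarith)
        have h5 := Real.sqrt_nonneg v
        have h6 := Real.sqrt_nonneg |u - v|
        nlinarith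
      · have h3 := Real.sq_sqrt (abs_nonneg (u - v))
        have h4 : |u - v| = u - v := abs_of_nonneg (by linarith)
        have h5 : Real.sqrt v = 0 := Real.sqrt_eq_zero_of_nonpos hv.le
        rw [h5, zero_add, h3, h4]
        linarith
    linarith
  rcases le_total v u with h | h
  · rw [abs_of_nonneg (sub_nonneg.2 (Real.sqrt_le_sqrt h))]
    exact key u v h
  · rw [abs_sub_comm, abs_sub_comm u v, abs_of_nonneg (sub_nonneg.2 (Real.sqrt_le_sqrt h))]
    exact key v u h

theorem RPT.sqrt {x : α → ℝ} (hx : RPT A x) : RPT A (fun a => Real.sqrt (x a)) := by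
  obtain ⟨F, hF, hFx⟩ := hx
  have hP : PT A (fun p : α × Un => 2 * (p.2.v + 2)) :=
    (PT.const 2).mul (PT.snd'.unVal.add (PT.const 2))
  have hPb : PBd (fun p : α × Un => 2 * (p.2.v + 2)) := (PBd.const 2).mul (pbd_un_add 2)
  refine RPT.of_scaled (fun a p => (Nat.sqrt (F a (2 * (p + 2))).toNat : ℤ)) (fun _ _ => 2) ?_
    (PT.const 2) (PBd.const 2) fun a p => ?_
  · exact ((pt_at hF PT.fst' hP hPb).toNat.natSqrt).natCast
  · have h1 := hFx a (2 * (p + 2))
    generalize F a (2 * (p + 2)) = f at *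
    have e1 : Real.sqrt ((2 : ℝ) ^ (2 * (p + 2)) * x a) = 2 ^ (p + 2) * Real.sqrt (x a) := by
      rw [Real.sqrt_mul (by positivity), mul_comm 2 (p + 2), pow_mul,
        Real.sqrt_sq (by positivity)]
    have h2 : |Real.sqrt f - 2 ^ (p + 2) * Real.sqrt (x a)| ≤ 1 := by
      rw [← e1]
      refine (abs_sqrt_sub_sqrt_le _ _).trans ?_
      exact Real.sqrt_le_one.2 h1
    have h3 : |((Nat.sqrt f.toNat : ℕ) : ℝ) - Real.sqrt f| ≤ 1 := by
      have e2 : Real.sqrt f = Real.sqrt (f.toNat : ℝ) := by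
        rcases le_or_gt 0 f with h | h
        · congr 1
          have : ((f.toNat : ℤ) : ℝ) = f := by rw [Int.toNat_of_nonneg h]
          exact_mod_cast this.symm
        · have h0 : f.toNat = 0 := by omega
          rw [h0]
          simp only [Nat.cast_zero, Real.sqrt_zero]
          exact Real.sqrt_eq_zero_of_nonpos (by exact_mod_cast h.le)
      rw [e2, abs_le]
      have h4 := Real.nat_sqrt_le_real_sqrt (a := f.toNat)
      have h5 := Real.real_sqrt_lt_nat_sqrt_succ (a := f.toNat)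
      constructor <;> linarith
    have h4 := abs_add_le (((Nat.sqrt f.toNat : ℕ) : ℝ) - Real.sqrt f)
      (Real.sqrt f - 2 ^ (p + 2) * Real.sqrt (x a))
    have e3 : ((Nat.sqrt f.toNat : ℕ) : ℝ) - Real.sqrt f +
      (Real.sqrt f - 2 ^ (p + 2) * Real.sqrt (x a)) =
      ((Nat.sqrt f.toNat : ℕ) : ℝ) - 2 ^ (p + 2) * Real.sqrt (x a) := by ring
    rw [e3] at h4
    push_cast
    norm_num
    linarith

theorem abs_ediv_sub_le (z f : ℤ) (hf : f ≠ 0) : |((z / f : ℤ) : ℝ) - z / f| ≤ 1 := by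
  have h1 := Int.mul_ediv_add_emod z f
  have h2 := Int.emod_nonneg z hf
  have h3 := Int.emod_lt_abs z hf
  have hf' : (f : ℝ) ≠ 0 := by exact_mod_cast hf
  generalize z / f = Q at *
  generalize z % f = R at *
  have h1' : (z : ℝ) = f * Q + R := by
    rw [← h1]; push_cast; ring
  have e : (Q : ℝ) - z / f = - (R / f) := by
    rw [h1']; field_simp; ring
  rw [e, abs_neg, abs_div, div_le_one (abs_pos.2 hf')]
  have h2' : (0 : ℝ) ≤ R := by exact_mod_cast h2
  have h3' : (R : ℝ) < |(f : ℝ)| := by exact_mod_cast h3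
  rw [abs_of_nonneg h2']
  exact h3'.le

theorem RPT.inv {x : α → ℝ} (hx : RPT A x) {B : α → ℕ} (hB : PBd B)
    (h : ∀ a, 1 ≤ 2 ^ B a * |x a|) : RPT A (fun a => (x a)⁻¹) := by
  obtain ⟨c, hc⟩ := hB
  have hB1 : PT A (fun a : α => pb c (esize a)) := by
    have : PT A (fun a : α => (esize a + 2) ^ c) := (PT.size PT.id |>.add (PT.const 2)).powConst c
    exact this
  have hB2 : PBd (fun a : α => pb c (esize a)) := PBd.of_PB (PB.pb c)
  have h' : ∀ a, 1 ≤ 2 ^ pb c (esize a) * |x a| := fun a =>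
    (h a).trans (mul_le_mul_of_nonneg_right (pow_le_pow_right₀ (by norm_num) (hc a))
      (abs_nonneg _))
  obtain ⟨B, hBe⟩ : ∃ B : α → ℕ, B = fun a => pb c (esize a) := ⟨_, rfl⟩
  rw [← hBe] at hB1 hB2
  replace h' : ∀ a, 1 ≤ 2 ^ B a * |x a| := by rw [hBe]; exact h'
  clear hBe h hc
  obtain ⟨F, hF, hFx⟩ := hx
  have hs : PT A (fun p : α × Un => 2 * B p.1 + 3) :=
    ((PT.const 2).mul (hB1.comp PT.fst')).add (PT.const 3)
  have hsb : PBd (fun p : α × Un => 2 * B p.1 + 3) :=
    ((PBd.const 2).mul (PBd.comp (A := A) hB2 PT.fst')).add (PBd.const 3)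
  have hP : PT A (fun p : α × Un => p.2.v + (2 * B p.1 + 3)) := PT.snd'.unVal.add hs
  have hPb : PBd (fun p : α × Un => p.2.v + (2 * B p.1 + 3)) :=
    (PBd.unVal (A := A) PT.snd').add hsb
  refine RPT.of_scaled (fun a p => 2 ^ (2 * (p + (2 * B a + 3))) / F a (p + (2 * B a + 3)))
    (fun a p => 2 * B a + 3) ?_ hs hsb fun a p => ?_
  · exact (PT.intPow (PT.const (2 : ℤ)) ((PT.const 2).mul hP) ((PBd.const 2).mul hPb)).intDiv
      (pt_at hF PT.fst' hP hPb)
  · have h1 := hFx a (p + (2 * B a + 3))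
    have h2 := h' a
    generalize F a (p + (2 * B a + 3)) = f at *
    set N : ℝ := 2 ^ (p + (2 * B a + 3)) with hN
    set b : ℝ := 2 ^ B a with hb
    have hb1 : 1 ≤ b := one_le_pow₀ (by norm_num)
    have eN : N = 2 ^ p * (b * b * 8) := by
      rw [hN, hb, pow_add, pow_add, two_mul, pow_add]; norm_num
    have hN8 : 8 * b * b ≤ N := by
      rw [eN]
      have : (1 : ℝ) ≤ 2 ^ p := one_le_pow₀ (by norm_num)
      nlinarith [mul_pos (lt_of_lt_of_le one_pos hb1) (lt_of_lt_of_le one_pos hb1)]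
    have hx0 : 0 < |x a| := by
      by_contra hx0
      have : |x a| = 0 := le_antisymm (not_lt.1 hx0) (abs_nonneg _)
      rw [this, mul_zero] at h2
      linarith
    have hxne : x a ≠ 0 := abs_pos.1 hx0
    have hNpos : 0 < N := by positivity
    have hf : N ≤ 2 * b * |(f : ℝ)| := by
      have h3 : N * |x a| ≤ |(f : ℝ)| + 1 := by
        calc N * |x a| = |N * x a| := by rw [abs_mul, abs_of_pos hNpos]
          _ = |(f : ℝ) - (f - N * x a)| := by congr 1; ring
          _ ≤ |(f : ℝ)| + |f - N * x a| := abs_sub _ _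
          _ ≤ _ := by linarith
      have h4 : N ≤ b * (|(f : ℝ)| + 1) := by
        calc N = N * 1 := by ring
          _ ≤ N * (b * |x a|) := mul_le_mul_of_nonneg_left h2 hNpos.le
          _ = b * (N * |x a|) := by ring
          _ ≤ _ := mul_le_mul_of_nonneg_left h3 (by linarith)
      have h5 : 2 * b ≤ N := by nlinarith
      nlinarith
    have hfne : (f : ℝ) ≠ 0 := by
      intro h0
      rw [h0] at hf
      simp at hf
      linarith
    have hfl : |(((2 ^ (2 * (p + (2 * B a + 3))) / f : ℤ)) : ℝ) - N * N / f| ≤ 1 := by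
      have h6 := abs_ediv_sub_le (2 ^ (2 * (p + (2 * B a + 3)))) f (by exact_mod_cast hfne)
      have e7 : ((2 ^ (2 * (p + (2 * B a + 3))) : ℤ) : ℝ) = N * N := by
        rw [hN, ← pow_add]; push_cast; congr 1; ring
      rwa [e7] at h6
    have e4 : N * N / f - N * (x a)⁻¹ = N * (N * x a - f) / (f * x a) := by
      field_simp
    have h6 : |N * N / f - N * (x a)⁻¹| ≤ 2 * b * b := by
      rw [e4, abs_div, abs_mul, abs_mul, div_le_iff₀ (by positivity), abs_of_pos hNpos,
        abs_sub_comm (N * x a)]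
      have h7 : N * |(f : ℝ) - N * x a| ≤ N * 1 := mul_le_mul_of_nonneg_left h1 hNpos.le
      have h8 : N * 1 ≤ (2 * b * |(f : ℝ)|) * (b * |x a|) :=
        mul_le_mul hf h2 (by norm_num) (by positivity)
      nlinarith
    have h9 := abs_add_le ((((2 ^ (2 * (p + (2 * B a + 3))) / f : ℤ)) : ℝ) - N * N / f)
      (N * N / f - N * (x a)⁻¹)
    have e5 : (((2 ^ (2 * (p + (2 * B a + 3))) / f : ℤ)) : ℝ) - N * N / f +
        (N * N / f - N * (x a)⁻¹) =
        (((2 ^ (2 * (p + (2 * B a + 3))) / f : ℤ)) : ℝ) - N * (x a)⁻¹ := by ring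
    rw [e5] at h9
    have e6 : (2 : ℝ) ^ (2 * B a + 3) = 8 * (b * b) := by
      rw [hb, pow_add, two_mul, pow_add]; norm_num; ring
    rw [e6]
    have : 1 ≤ b * b := one_le_mul_of_one_le_of_one_le hb1 hb1
    linarith

end Vale.Agent.P338.R3.H900
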