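import Vale.Agent.P338.R3.H900.RPT

/-!
Fixed point approximation of `exp (2 π i m / q)`: halving of the angle and binary digits.
-/

namespace Vale.Agent.P338.R3.H900

open Vale.Agent.Lib.PolyTime Function

/-- Halving of the angle, scale `N`. -/
def halfC (N U : ℤ) : ℤ := (Nat.sqrt ((N + U) * N / ((2 : ℕ) : ℤ)).toNat : ℤ)

/-- Halving of the angle, scale `N`: the new sine. -/
def halfS (N U V : ℤ) : ℤ := V * N / (2 * halfC N U)

theorem halfC_err {N U : ℤ} {c : ℝ} (hN : (1000 : ℝ) ≤ N) (hc : 0 ≤ c)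
    (h : |(U : ℝ) - N * c| ≤ 4) : |(halfC N U : ℝ) - N * Real.sqrt ((1 + c) / 2)| ≤ 4 := by
  set c' := Real.sqrt ((1 + c) / 2) with hc'
  have hc'0 : 0 ≤ c' := Real.sqrt_nonneg _
  have hc'2 : c' ^ 2 = (1 + c) / 2 := Real.sq_sqrt (by linarith)
  have hc'7 : (7 / 10 : ℝ) ≤ c' := by nlinarith
  set T : ℤ := (N + U) * N / ((2 : ℕ) : ℤ) with hT
  have hT1 : |(T : ℝ) - (N + U) * N / 2| ≤ 1 := by
    have := abs_ediv_sub_le ((N + U) * N) 2 (by norm_num)
    rw [hT]
    push_cast at this ⊢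
    exact this
  have hT2 : |(T : ℝ) - (N * c') ^ 2| ≤ 2 * N + 1 := by
    have e : (T : ℝ) - (N * c') ^ 2 = (T - (N + U) * N / 2) + (U - N * c) * (N / 2) := by
      rw [mul_pow, hc'2]; ring
    rw [e]
    refine (abs_add_le _ _).trans ?_
    rw [abs_mul, abs_of_nonneg (by linarith : (0 : ℝ) ≤ N / 2)]
    have := mul_le_mul_of_nonneg_right h (by linarith : (0 : ℝ) ≤ N / 2)
    linarith
  have hT0 : (0 : ℝ) ≤ T := by
    have h6 := (abs_le.1 hT2).1
    have h7 : (7 / 10 : ℝ) * N ≤ N * c' := by nlinarith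
    have h8 : ((7 / 10 : ℝ) * N) ^ 2 ≤ (N * c') ^ 2 := pow_le_pow_left₀ (by linarith) h7 2
    nlinarith
  have hT0' : 0 ≤ T := by exact_mod_cast hT0
  set w := Real.sqrt T with hw
  have hw0 : 0 ≤ w := Real.sqrt_nonneg _
  have hw2 : w ^ 2 = T := Real.sq_sqrt hT0
  have h1 : |(halfC N U : ℝ) - w| ≤ 1 := by
    have e2 : w = Real.sqrt (T.toNat : ℝ) := by
      rw [hw]
      congr 1
      have : ((T.toNat : ℤ) : ℝ) = T := by rw [Int.toNat_of_nonneg hT0']
      exact_mod_cast this.symm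
    have e3 : (halfC N U : ℝ) = (Nat.sqrt T.toNat : ℕ) := by
      rw [halfC, hT]; push_cast; rfl
    rw [e2, e3, abs_le]
    have h4 := Real.nat_sqrt_le_real_sqrt (a := T.toNat)
    have h5 := Real.real_sqrt_lt_nat_sqrt_succ (a := T.toNat)
    constructor <;> linarith
  have h2 : |w - N * c'| ≤ 29 / 10 := by
    have e : (w - N * c') * (w + N * c') = T - (N * c') ^ 2 := by rw [← hw2]; ring
    have h3 : |w - N * c'| * (w + N * c') ≤ 2 * N + 1 := by
      have : |w - N * c'| * |w + N * c'| = |(T : ℝ) - (N * c') ^ 2| := by rw [← abs_mul, e]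
      rw [abs_of_nonneg (by positivity : 0 ≤ w + N * c')] at this
      rw [this]
      exact hT2
    by_contra hcon
    rw [not_le] at hcon
    have h4 : (29 / 10 : ℝ) * (N * (7 / 10)) ≤ |w - N * c'| * (w + N * c') := by
      apply mul_le_mul hcon.le _ (by positivity) (abs_nonneg _)
      nlinarith
    nlinarith
  have h3 := abs_add_le ((halfC N U : ℝ) - w) (w - N * c')
  have e : (halfC N U : ℝ) - w + (w - N * c') = halfC N U - N * c' := by ring
  rw [e] at h3
  linarith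

theorem halfS_err {N U V : ℤ} {c' s' : ℝ} (hN : (1000 : ℝ) ≤ N) (hc : (7071 / 10000) ≤ c')
    (hs0 : 0 ≤ s') (hs : s' ≤ 70711 / 100000) (hC : |(halfC N U : ℝ) - N * c'| ≤ 4)
    (h : |(V : ℝ) - N * (2 * s' * c')| ≤ 18) : |(halfS N U V : ℝ) - N * s'| ≤ 18 := by
  have hU : (703 / 1000 : ℝ) * N ≤ halfC N U := by
    have := (abs_le.1 hC).1
    nlinarith
  have hU0 : (0 : ℝ) < halfC N U := by linarith
  have hU0' : 2 * halfC N U ≠ 0 := by
    have : (0 : ℤ) < halfC N U := by exact_mod_cast hU0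
    omega
  have h1 := abs_ediv_sub_le (V * N) (2 * halfC N U) hU0'
  rw [← halfS] at h1
  push_cast at h1
  have h2 : |(V : ℝ) * N / (2 * halfC N U) - N * s'| ≤ 169 / 10 := by
    have e : (V : ℝ) * N / (2 * halfC N U) - N * s' =
        N * ((V - N * (2 * s' * c')) + (2 * s') * (N * c' - halfC N U)) / (2 * halfC N U) := by
      field_simp
      ring
    rw [e, abs_div, abs_mul, abs_of_nonneg (by linarith : (0 : ℝ) ≤ N),
      abs_of_pos (by linarith : (0 : ℝ) < 2 * halfC N U), div_le_iff₀ (by linarith)]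
    have h3 : |(V - N * (2 * s' * c')) + (2 * s') * (N * c' - halfC N U)| ≤ 23657 / 1000 := by
      refine (abs_add_le _ _).trans ?_
      rw [abs_mul, abs_of_nonneg (by linarith : (0 : ℝ) ≤ 2 * s'), abs_sub_comm (N * c')]
      have := mul_le_mul hs hC (abs_nonneg _) (by norm_num)
      nlinarith
    have h4 := mul_le_mul_of_nonneg_left h3 (by linarith : (0 : ℝ) ≤ N)
    nlinarith
  have h3 := abs_add_le ((halfS N U V : ℝ) - V * N / (2 * halfC N U))
    ((V : ℝ) * N / (2 * halfC N U) - N * s')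
  have e : (halfS N U V : ℝ) - V * N / (2 * halfC N U) +
    ((V : ℝ) * N / (2 * halfC N U) - N * s') = halfS N U V - N * s' := by ring
  rw [e] at h3
  linarith

/-- One step: the angle of `s.2` is halved, the next binary digit of `r / q` is used. -/
def rootSt (P r q j : ℕ) (s : (ℤ × ℤ) × (ℤ × ℤ)) : (ℤ × ℤ) × (ℤ × ℤ) :=
  (if (2 ^ (min j P + 3) * r / q) % 2 = 1 then
      ((s.1.1 * halfC (2 ^ P) s.2.1 - s.1.2 * halfS (2 ^ P) s.2.1 s.2.2) / 2 ^ P,
        (s.1.1 * halfS (2 ^ P) s.2.1 s.2.2 + s.1.2 * halfC (2 ^ P) s.2.1) / 2 ^ P)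
    else s.1, (halfC (2 ^ P) s.2.1, halfS (2 ^ P) s.2.1 s.2.2))

/-- The initial state. -/
def rootIn (P r q : ℕ) : (ℤ × ℤ) × (ℤ × ℤ) :=
  ((if 4 * r / q = 0 then 2 ^ P else if 4 * r / q = 2 then - 2 ^ P else 0,
    if 4 * r / q = 1 then 2 ^ P else if 4 * r / q = 3 then - 2 ^ P else 0), (0, 2 ^ P))

/-- The state after `j` steps. -/
def rootRec (P r q j : ℕ) : (ℤ × ℤ) × (ℤ × ℤ) :=
  Nat.rec (motive := fun _ => (ℤ × ℤ) × (ℤ × ℤ)) (rootIn P r q) (rootSt P r q) j

theorem rootRec_succ (P r q j : ℕ) : rootRec P r q (j + 1) = rootSt P r q j (rootRec P r q j) := rfl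

/-- The angles of the halving. -/
noncomputable def ang (j : ℕ) : ℝ := Real.pi / 2 ^ (j + 1)

theorem ang_succ (j : ℕ) : ang (j + 1) = ang j / 2 := by
  rw [ang, ang, pow_succ 2 (j + 1)]
  field_simp

theorem ang_zero : ang 0 = Real.pi / 2 := by simp [ang]

theorem ang_pos (j : ℕ) : 0 < ang j := by unfold ang; positivity

theorem ang_le (j : ℕ) : ang j ≤ Real.pi / 2 := by
  unfold ang
  apply div_le_div_of_nonneg_left Real.pi_pos.le (by norm_num)
  calc (2 : ℝ) = 2 ^ 1 := by norm_num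
    _ ≤ 2 ^ (j + 1) := pow_le_pow_right₀ (by norm_num) (by omega)

theorem cos_ang_nonneg (j : ℕ) : 0 ≤ Real.cos (ang j) :=
  Real.cos_nonneg_of_mem_Icc ⟨by linarith [ang_pos j, Real.pi_pos], ang_le j⟩

theorem root_Z (P : ℕ) (hP : 10 ≤ P) (r q j : ℕ) :
    |((rootRec P r q j).2.1 : ℝ) - 2 ^ P * Real.cos (ang j)| ≤ 4 ∧
    |((rootRec P r q j).2.2 : ℝ) - 2 ^ P * Real.sin (ang j)| ≤ 18 := by
  have hN : (1000 : ℝ) ≤ ((2 ^ P : ℤ) : ℝ) := by
    have : (2 : ℝ) ^ 10 ≤ 2 ^ P := pow_le_pow_right₀ (by norm_num) hP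
    push_cast
    linarith
  induction j with
  | zero =>
    rw [ang_zero]
    simp only [rootRec, rootIn, Real.cos_pi_div_two, Real.sin_pi_div_two]
    constructor <;> norm_num
  | succ j ih =>
    obtain ⟨h1, h2⟩ := ih
    rw [rootRec_succ]
    generalize rootRec P r q j = s at *
    simp only [rootSt]
    have hc0 := cos_ang_nonneg j
    have hc1 := Real.cos_le_one (ang j)
    have e1 : Real.cos (ang (j + 1)) = Real.sqrt ((1 + Real.cos (ang j)) / 2) := by
      rw [ang_succ]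
      exact Real.cos_half (by linarith [ang_pos j, Real.pi_pos])
        (by linarith [ang_le j, Real.pi_pos])
    have hc'2 : Real.cos (ang (j + 1)) ^ 2 = (1 + Real.cos (ang j)) / 2 := by
      rw [e1]; exact Real.sq_sqrt (by linarith)
    have hc'0 := cos_ang_nonneg (j + 1)
    have h3 : |((halfC (2 ^ P) s.2.1 : ℤ) : ℝ) - 2 ^ P * Real.cos (ang (j + 1))| ≤ 4 := by
      have := halfC_err (N := 2 ^ P) (U := s.2.1) hN hc0 (by push_cast; exact h1)
      rw [← e1] at this
      push_cast at this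
      exact this
    refine ⟨h3, ?_⟩
    have hs'0 : 0 ≤ Real.sin (ang (j + 1)) :=
      Real.sin_nonneg_of_nonneg_of_le_pi (ang_pos _).le (by linarith [ang_le (j + 1), Real.pi_pos])
    have hsc := Real.sin_sq_add_cos_sq (ang (j + 1))
    have e2 : Real.sin (ang j) = 2 * Real.sin (ang (j + 1)) * Real.cos (ang (j + 1)) := by
      rw [← Real.sin_two_mul, ang_succ]; congr 1; ring
    have := halfS_err (N := 2 ^ P) (U := s.2.1) (V := s.2.2) (c' := Real.cos (ang (j + 1)))
      (s' := Real.sin (ang (j + 1))) hN (by nlinarith) hs'0 (by nlinarith)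
      (by push_cast; exact h3) (by push_cast; rw [← e2]; exact h2)
    push_cast at this
    exact this

/-- The complex number with integer coordinates. -/
noncomputable def toC (p : ℤ × ℤ) : ℂ := ⟨(p.1 : ℝ), (p.2 : ℝ)⟩

/-- `exp (i t)`. -/
noncomputable def ex (t : ℝ) : ℂ := ⟨Real.cos t, Real.sin t⟩

theorem ex_eq (t : ℝ) : ex t = Complex.exp (t * Complex.I) := by
  apply Complex.ext
  · rw [Complex.exp_ofReal_mul_I_re, ex]
  · rw [Complex.exp_ofReal_mul_I_im, ex]

theorem norm_ex (t : ℝ) : ‖ex t‖ = 1 := by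
  rw [ex_eq]; exact Complex.norm_exp_ofReal_mul_I t

theorem ex_add (s t : ℝ) : ex (s + t) = ex s * ex t := by
  rw [ex_eq, ex_eq, ex_eq, ← Complex.exp_add]; push_cast; congr 1; ring

theorem norm_ex_sub_le (s t : ℝ) : ‖ex s - ex t‖ ≤ |s - t| := by
  have e : ex s - ex t = ex t * (Complex.exp (Complex.I * (s - t : ℝ)) - 1) := by
    have : s = t + (s - t) := by ring
    conv_lhs => rw [this, ex_add, ex_eq (s - t)]
    push_cast
    ring_nf
  rw [e, norm_mul, norm_ex, one_mul]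
  exact Real.norm_exp_I_mul_ofReal_sub_one_le

theorem norm_le_add (z : ℂ) : ‖z‖ ≤ |z.re| + |z.im| := Complex.norm_le_abs_re_add_abs_im z

/-- The product in fixed point arithmetic. -/
theorem mul_err {N : ℤ} (hN0 : 0 < N) {x z : ℤ × ℤ} {e w : ℂ} {ε δ : ℝ} (hw : ‖w‖ = 1)
    (h1 : ‖toC x - N * e‖ ≤ ε) (h2 : ‖toC z - N * w‖ ≤ δ) (h3 : ‖toC x‖ ≤ 2 * N) :
    ‖toC ((x.1 * z.1 - x.2 * z.2) / N, (x.1 * z.2 + x.2 * z.1) / N) - N * (e * w)‖ ≤
      ε + 2 * δ + 2 := by
  have hNr : (0 : ℝ) < N := by exact_mod_cast hN0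
  have hNc : (N : ℂ) ≠ 0 := by exact_mod_cast hN0.ne'
  have e1 : ‖toC ((x.1 * z.1 - x.2 * z.2) / N, (x.1 * z.2 + x.2 * z.1) / N) -
      toC x * toC z / N‖ ≤ 2 := by
    refine (norm_le_add _).trans ?_
    have h4 := abs_ediv_sub_le (x.1 * z.1 - x.2 * z.2) N hN0.ne'
    have h5 := abs_ediv_sub_le (x.1 * z.2 + x.2 * z.1) N hN0.ne'
    have e2 : toC x * toC z / N = ⟨(x.1 * z.1 - x.2 * z.2) / N, (x.1 * z.2 + x.2 * z.1) / N⟩ := by
      rw [div_eq_iff hNc]
      apply Complex.ext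
      · simp [toC]
        field_simp
      · simp [toC]
        field_simp
    rw [e2]
    simp only [toC, Complex.sub_re, Complex.sub_im]
    push_cast at h4 h5
    linarith
  have e3 : toC x * toC z / N - N * (e * w) = (toC x - N * e) * w + toC x / N * (toC z - N * w) := by
    field_simp
    ring
  have h6 : ‖toC x * toC z / N - N * (e * w)‖ ≤ ε + 2 * δ := by
    rw [e3]
    refine (norm_add_le _ _).trans (add_le_add ?_ ?_)
    · rw [norm_mul, hw, mul_one]; exact h1
    · rw [norm_mul, norm_div]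
      have h7 : ‖(N : ℂ)‖ = N := by
        rw [Complex.norm_intCast, abs_of_pos hNr]
      rw [h7]
      have h8 : ‖toC x‖ / N ≤ 2 := by rw [div_le_iff₀ hNr]; exact h3
      exact mul_le_mul h8 h2 (norm_nonneg _) (by norm_num)
  have h7 := norm_add_le (toC ((x.1 * z.1 - x.2 * z.2) / N, (x.1 * z.2 + x.2 * z.1) / N) -
    toC x * toC z / N) (toC x * toC z / N - N * (e * w))
  have e4 : toC ((x.1 * z.1 - x.2 * z.2) / N, (x.1 * z.2 + x.2 * z.1) / N) -
    toC x * toC z / N + (toC x * toC z / N - N * (e * w)) =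
    toC ((x.1 * z.1 - x.2 * z.2) / N, (x.1 * z.2 + x.2 * z.1) / N) - N * (e * w) := by ring
  rw [e4] at h7
  linarith

/-- The angle after `j` steps. -/
noncomputable def angM (r q j : ℕ) : ℝ := 2 * Real.pi * (2 ^ (j + 2) * r / q : ℕ) / 2 ^ (j + 2)

theorem angM_succ (r q j : ℕ) : angM r q (j + 1) =
    angM r q j + (2 ^ (j + 3) * r / q % 2 : ℕ) * ang (j + 1) := by
  have e : (2 ^ (j + 2) * r / q : ℕ) = 2 ^ (j + 3) * r / q / 2 := by
    rw [Nat.div_div_eq_div_mul, mul_comm q 2, pow_succ 2 (j + 2), mul_comm (2 ^ (j + 2)) 2,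
      mul_assoc, Nat.mul_div_mul_left _ _ (by norm_num)]
  have h := Nat.div_add_mod (2 ^ (j + 3) * r / q) 2
  rw [angM, angM, e, ang]
  generalize 2 ^ (j + 3) * r / q = M at *
  generalize hA : M / 2 = A at *
  generalize hB : M % 2 = B at *
  have h' : (M : ℝ) = 2 * A + B := by rw [← h]; push_cast; ring
  have e3 : j + 1 + 2 = j + 3 := by ring
  rw [e3, h', pow_succ 2 (j + 2), pow_succ 2 (j + 1)]
  field_simp

theorem two_pow_ge {P : ℕ} (hP : 10 ≤ P) : 46 * P ≤ 2 ^ P := by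
  induction P, hP using Nat.le_induction with
  | base => norm_num
  | succ P hP ih => rw [pow_succ]; omega

theorem root_in (P r q : ℕ) (hr : r < q) :
    toC (rootIn P r q).1 = 2 ^ P * ex (angM r q 0) := by
  have h4 : 4 * r / q < 4 := by
    rw [Nat.div_lt_iff_lt_mul (by omega)]
    omega
  have e : angM r q 0 = (4 * r / q : ℕ) * (Real.pi / 2) := by
    rw [angM]
    norm_num
    ring
  rw [e]
  simp only [rootIn, toC, ex]
  generalize 4 * r / q = k at *
  have h1 : Real.cos (2 * (Real.pi / 2)) = -1 := by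
    rw [show 2 * (Real.pi / 2) = Real.pi by ring, Real.cos_pi]
  have h2 : Real.sin (2 * (Real.pi / 2)) = 0 := by
    rw [show 2 * (Real.pi / 2) = Real.pi by ring, Real.sin_pi]
  have h3 : Real.cos (3 * (Real.pi / 2)) = 0 := by
    rw [show 3 * (Real.pi / 2) = Real.pi / 2 + Real.pi by ring, Real.cos_add_pi,
      Real.cos_pi_div_two, neg_zero]
  have h5 : Real.sin (3 * (Real.pi / 2)) = -1 := by
    rw [show 3 * (Real.pi / 2) = Real.pi / 2 + Real.pi by ring, Real.sin_add_pi,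
      Real.sin_pi_div_two]
  have hre : ((2 : ℂ) ^ P).re = 2 ^ P := by
    have : ((2 : ℂ) ^ P) = ((2 ^ P : ℝ) : ℂ) := by push_cast; rfl
    rw [this, Complex.ofReal_re]
  have him : ((2 : ℂ) ^ P).im = 0 := by
    have : ((2 : ℂ) ^ P) = ((2 ^ P : ℝ) : ℂ) := by push_cast; rfl
    rw [this, Complex.ofReal_im]
  interval_cases k
  · apply Complex.ext <;> simp [hre, him]
  · apply Complex.ext <;> simp [hre, him]
  · apply Complex.ext <;> simp [hre, him, h1, h2]
  · apply Complex.ext <;> simp [hre, him, h3, h5]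

theorem root_E (P : ℕ) (hP : 10 ≤ P) (r q : ℕ) (hr : r < q) (j : ℕ) (hj : j ≤ P) :
    ‖toC (rootRec P r q j).1 - 2 ^ P * ex (angM r q j)‖ ≤ 46 * j := by
  induction j with
  | zero =>
    have : rootRec P r q 0 = rootIn P r q := rfl
    rw [this, root_in P r q hr]
    simp
  | succ j ih =>
    have ih := ih (by omega)
    have hZ := root_Z P hP r q (j + 1)
    rw [rootRec_succ] at hZ ⊢
    have hmin : min j P = j := by omega
    have e1 : (rootSt P r q j (rootRec P r q j)).2 =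
      (halfC (2 ^ P) (rootRec P r q j).2.1,
        halfS (2 ^ P) (rootRec P r q j).2.1 (rootRec P r q j).2.2) := rfl
    rw [e1] at hZ
    rw [angM_succ]
    generalize rootRec P r q j = s at *
    simp only [rootSt, hmin]
    have hZ' : ‖toC (halfC (2 ^ P) s.2.1, halfS (2 ^ P) s.2.1 s.2.2) -
        ((2 ^ P : ℤ) : ℂ) * ex (ang (j + 1))‖ ≤ 22 := by
      refine (norm_le_add _).trans ?_
      have hre : (((2 ^ P : ℤ) : ℂ) * ex (ang (j + 1))).re = 2 ^ P * Real.cos (ang (j + 1)) := by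
        have : ((2 ^ P : ℤ) : ℂ) = ((2 ^ P : ℝ) : ℂ) := by push_cast; rfl
        rw [this, Complex.re_ofReal_mul, ex]
      have him : (((2 ^ P : ℤ) : ℂ) * ex (ang (j + 1))).im = 2 ^ P * Real.sin (ang (j + 1)) := by
        have : ((2 ^ P : ℤ) : ℂ) = ((2 ^ P : ℝ) : ℂ) := by push_cast; rfl
        rw [this, Complex.im_ofReal_mul, ex]
      rw [Complex.sub_re, Complex.sub_im, hre, him]
      simp only [toC]
      linarith [hZ.1, hZ.2]
    rcases Nat.mod_two_eq_zero_or_one (2 ^ (j + 3) * r / q) with h | h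
    · rw [h]
      simp only [zero_ne_one, if_false, Nat.cast_zero, zero_mul, add_zero]
      push_cast
      linarith
    · rw [h]
      simp only [if_true, Nat.cast_one, one_mul]
      rw [ex_add]
      have hpow : (46 : ℝ) * j ≤ 2 ^ P := by
        have := two_pow_ge hP
        have h5 : 46 * j ≤ 2 ^ P := by omega
        exact_mod_cast h5
      have hn : ‖toC s.1‖ ≤ 2 * ((2 ^ P : ℤ) : ℝ) := by
        have h6 := norm_add_le (toC s.1 - 2 ^ P * ex (angM r q j)) (2 ^ P * ex (angM r q j))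
        rw [sub_add_cancel, norm_mul, norm_ex, norm_pow] at h6
        push_cast
        have h7 : ‖(2 : ℂ)‖ = 2 := by simp
        rw [h7] at h6
        linarith
      have := mul_err (N := 2 ^ P) (by positivity) (x := s.1)
        (z := (halfC (2 ^ P) s.2.1, halfS (2 ^ P) s.2.1 s.2.2)) (e := ex (angM r q j))
        (w := ex (ang (j + 1))) (norm_ex _) (by push_cast; exact ih) hZ' hn
      push_cast at this ⊢
      refine this.trans ?_
      linarith

/-- The final approximation. -/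
theorem root_err (P : ℕ) (hP : 10 ≤ P) (r q : ℕ) (hr : r < q) :
    ‖toC (rootRec P r q P).1 - 2 ^ P * ex (2 * Real.pi * r / q)‖ ≤ 46 * P + 2 := by
  have h1 := root_E P hP r q hr P le_rfl
  have hq : (0 : ℝ) < q := by exact_mod_cast (by omega : 0 < q)
  have h2 : ‖ex (angM r q P) - ex (2 * Real.pi * r / q)‖ ≤ 2 / 2 ^ P := by
    refine (norm_ex_sub_le _ _).trans ?_
    have h3 := Nat.div_add_mod (2 ^ (P + 2) * r) q
    have h4 := Nat.mod_lt (2 ^ (P + 2) * r) (by omega : q > 0)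
    rw [angM]
    generalize 2 ^ (P + 2) * r / q = Q at *
    generalize hR : 2 ^ (P + 2) * r % q = R at *
    have h3' : (q : ℝ) * Q + R = 2 ^ (P + 2) * r := by exact_mod_cast h3
    have h4' : (R : ℝ) < q := by exact_mod_cast h4
    have hR0 : (0 : ℝ) ≤ R := by positivity
    have hp : (0 : ℝ) < 2 ^ (P + 2) := by positivity
    have e : 2 * Real.pi * Q / 2 ^ (P + 2) - 2 * Real.pi * r / q =
        - (2 * Real.pi * (R / q) / 2 ^ (P + 2)) := by
      have : (r : ℝ) = (q * Q + R) / 2 ^ (P + 2) := by rw [h3']; field_simp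
      rw [this]
      field_simp
      ring
    rw [e, abs_neg, abs_of_nonneg (by positivity)]
    have h5 : (R : ℝ) / q ≤ 1 := by rw [div_le_one hq]; exact h4'.le
    have h6 : 2 * Real.pi * (R / q) ≤ 8 := by
      have := Real.pi_le_four
      have := Real.pi_pos
      have : 0 ≤ (R : ℝ) / q := by positivity
      nlinarith
    rw [pow_add, div_le_div_iff₀ (by positivity) (by positivity)]
    have : (0 : ℝ) < 2 ^ P := by positivity
    nlinarith
  have h3 : ‖(2 : ℂ) ^ P * ex (angM r q P) - 2 ^ P * ex (2 * Real.pi * r / q)‖ ≤ 2 := by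
    rw [← mul_sub, norm_mul, norm_pow]
    have h7 : ‖(2 : ℂ)‖ = 2 := by simp
    rw [h7]
    calc (2 : ℝ) ^ P * ‖ex (angM r q P) - ex (2 * Real.pi * r / q)‖ ≤ 2 ^ P * (2 / 2 ^ P) :=
          mul_le_mul_of_nonneg_left h2 (by positivity)
      _ = 2 := by field_simp
  have h4 := norm_add_le (toC (rootRec P r q P).1 - 2 ^ P * ex (angM r q P))
    ((2 : ℂ) ^ P * ex (angM r q P) - 2 ^ P * ex (2 * Real.pi * r / q))
  rw [sub_add_sub_cancel] at h4
  linarith

end Vale.Agent.P338.R3.H900
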