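import Vale.Agent.P338.R3.H900.Root

/-!
`cos (2 π m / q)` and `sin (2 π m / q)` are approximable in polynomial time.
-/

namespace Vale.Agent.P338.R3.H900

open Vale.Agent.Lib.PolyTime Function

variable {A : Set Word} {α β γ δ : Type*} [Enc α] [Enc β] [Enc γ] [Enc δ]

theorem pt_two_pow {P : δ → ℕ} (hP : PT A P) (hPb : PBd P) : PT A (fun d => (2 : ℤ) ^ P d) :=
  PT.intPow (PT.const 2) hP hPb

theorem pt_halfC {N U : δ → ℤ} (hN : PT A N) (hU : PT A U) :
    PT A (fun d => halfC (N d) (U d)) :=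
  (((hN.intAdd hU).intMul hN).intDivNat (PT.const 2)).toNat.natSqrt.natCast

theorem pt_halfS {N U V : δ → ℤ} (hN : PT A N) (hU : PT A U) (hV : PT A V) :
    PT A (fun d => halfS (N d) (U d) (V d)) :=
  (hV.intMul hN).intDiv ((PT.const 2).intMul (pt_halfC hN hU))

theorem pt_rootSt {P r q : δ → ℕ} (hP : PT A P) (hPb : PBd P) (hr : PT A r) (hq : PT A q) :
    PT A (fun p : δ × ℕ × ((ℤ × ℤ) × (ℤ × ℤ)) => rootSt (P p.1) (r p.1) (q p.1) p.2.1 p.2.2) := by
  have hP' : PT A (fun p : δ × ℕ × ((ℤ × ℤ) × (ℤ × ℤ)) => P p.1) := hP.comp PT.fst'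
  have hPb' : PBd (fun p : δ × ℕ × ((ℤ × ℤ) × (ℤ × ℤ)) => P p.1) := PBd.comp (A := A) hPb PT.fst'
  have hr' : PT A (fun p : δ × ℕ × ((ℤ × ℤ) × (ℤ × ℤ)) => r p.1) := hr.comp PT.fst'
  have hq' : PT A (fun p : δ × ℕ × ((ℤ × ℤ) × (ℤ × ℤ)) => q p.1) := hq.comp PT.fst'
  have hN : PT A (fun p : δ × ℕ × ((ℤ × ℤ) × (ℤ × ℤ)) => (2 : ℤ) ^ P p.1) := pt_two_pow hP' hPb'
  have hX : PT A (fun p : δ × ℕ × ((ℤ × ℤ) × (ℤ × ℤ)) => p.2.2.1.1) := by fun_prop
  have hY : PT A (fun p : δ × ℕ × ((ℤ × ℤ) × (ℤ × ℤ)) => p.2.2.1.2) := by fun_prop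
  have hU : PT A (fun p : δ × ℕ × ((ℤ × ℤ) × (ℤ × ℤ)) => p.2.2.2.1) := by fun_prop
  have hV : PT A (fun p : δ × ℕ × ((ℤ × ℤ) × (ℤ × ℤ)) => p.2.2.2.2) := by fun_prop
  have hj : PT A (fun p : δ × ℕ × ((ℤ × ℤ) × (ℤ × ℤ)) => min p.2.1 (P p.1) + 3) :=
    ((PT.snd'.fst).min hP').add (PT.const 3)
  have hjb : PBd (fun p : δ × ℕ × ((ℤ × ℤ) × (ℤ × ℤ)) => min p.2.1 (P p.1) + 3) :=
    (hPb'.add (PBd.const 3)).mono fun p => by
      have := min_le_right p.2.1 (P p.1)
      omega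
  have hC := pt_halfC hN hU
  have hS := pt_halfS hN hU hV
  have hbit : PT A (fun p : δ × ℕ × ((ℤ × ℤ) × (ℤ × ℤ)) =>
      decide ((2 ^ (min p.2.1 (P p.1) + 3) * r p.1 / q p.1) % 2 = 1)) :=
    ((((PT.pow (PT.const 2) hj hjb).mul hr').div hq').mod (PT.const 2)).eqNat (PT.const 1)
  refine PT.pair (PT.ite hbit (PT.pair ?_ ?_) PT.snd'.snd.fst) (hC.pair hS)
  · exact ((hX.intMul hC).intSub (hY.intMul hS)).intDiv hN
  · exact ((hX.intMul hS).intAdd (hY.intMul hC)).intDiv hN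

theorem pt_rootIn {P r q : δ → ℕ} (hP : PT A P) (hPb : PBd P) (hr : PT A r) (hq : PT A q) :
    PT A (fun d => rootIn (P d) (r d) (q d)) := by
  have hN := pt_two_pow hP hPb
  have h : PT A (fun d => 4 * r d / q d) := by fun_prop
  have h0 := h.eqNat (PT.const 0)
  have h1 := h.eqNat (PT.const 1)
  have h2 := h.eqNat (PT.const 2)
  have h3 := h.eqNat (PT.const 3)
  refine PT.pair (PT.pair ?_ ?_) ((PT.const 0).pair hN)
  · exact PT.ite h0 hN (PT.ite h2 hN.intNeg (PT.const 0))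
  · exact PT.ite h1 hN (PT.ite h3 hN.intNeg (PT.const 0))

theorem esize_int_le {z : ℤ} {P : ℕ} (h : |(z : ℝ)| < 2 ^ P) : esize z ≤ P + 3 := by
  rw [esize_int]
  have h1 : z.natAbs < 2 ^ P := by
    have h5 : (z.natAbs : ℝ) = |(z : ℝ)| := by rw [Nat.cast_natAbs]; simp
    rw [← h5] at h
    exact_mod_cast h
  have := Nat.size_le.2 h1
  omega

theorem esize_rootRec {P r q : ℕ} (hP : 10 ≤ P) (hr : r < q) {j : ℕ} (hj : j ≤ P) :
    esize (rootRec P r q j) ≤ 9 * (P + 5) + 4 := by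
  have hZ := root_Z P hP r q j
  have hE := root_E P hP r q hr j hj
  generalize rootRec P r q j = s at *
  have hpow : (46 : ℝ) * P ≤ 2 ^ P := by exact_mod_cast two_pow_ge hP
  have hj' : (j : ℝ) ≤ P := by exact_mod_cast hj
  have h20 : (1000 : ℝ) ≤ 2 ^ P := by
    have : (2 : ℝ) ^ 10 ≤ 2 ^ P := pow_le_pow_right₀ (by norm_num) hP
    linarith
  have e4 : (2 : ℝ) ^ (P + 2) = 4 * 2 ^ P := by rw [pow_add]; norm_num; ring
  have hU : |(s.2.1 : ℝ)| < 2 ^ (P + 2) := by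
    have h1 := abs_add_le ((s.2.1 : ℝ) - 2 ^ P * Real.cos (ang j)) (2 ^ P * Real.cos (ang j))
    rw [sub_add_cancel] at h1
    have h2 : |2 ^ P * Real.cos (ang j)| ≤ 2 ^ P := by
      rw [abs_mul, abs_of_pos (by positivity)]
      have := Real.abs_cos_le_one (ang j)
      nlinarith [(by positivity : (0 : ℝ) < 2 ^ P)]
    linarith [hZ.1]
  have hV : |(s.2.2 : ℝ)| < 2 ^ (P + 2) := by
    have h1 := abs_add_le ((s.2.2 : ℝ) - 2 ^ P * Real.sin (ang j)) (2 ^ P * Real.sin (ang j))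
    rw [sub_add_cancel] at h1
    have h2 : |2 ^ P * Real.sin (ang j)| ≤ 2 ^ P := by
      rw [abs_mul, abs_of_pos (by positivity)]
      have := Real.abs_sin_le_one (ang j)
      nlinarith [(by positivity : (0 : ℝ) < 2 ^ P)]
    linarith [hZ.2]
  have hn : ‖toC s.1‖ < 2 ^ (P + 2) := by
    have h6 := norm_add_le (toC s.1 - 2 ^ P * ex (angM r q j)) (2 ^ P * ex (angM r q j))
    rw [sub_add_cancel, norm_mul, norm_ex, norm_pow] at h6
    have h7 : ‖(2 : ℂ)‖ = 2 := by simp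
    rw [h7] at h6
    have : (46 : ℝ) * j ≤ 46 * P := by linarith
    linarith
  have hX : |(s.1.1 : ℝ)| < 2 ^ (P + 2) := (Complex.abs_re_le_norm (toC s.1)).trans_lt hn
  have hY : |(s.1.2 : ℝ)| < 2 ^ (P + 2) := (Complex.abs_im_le_norm (toC s.1)).trans_lt hn
  have h1 := esize_int_le hX
  have h2 := esize_int_le hY
  have h3 := esize_int_le hU
  have h4 := esize_int_le hV
  have e : esize s = 2 * (2 * esize s.1.1 + esize s.1.2 + 1) + (2 * esize s.2.1 + esize s.2.2 + 1)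
      + 1 := by
    rw [← esize_pair, ← esize_pair, ← esize_pair]
  rw [e]
  omega

theorem pt_rootRec {P r q : δ → ℕ} (hP : PT A P) (hPb : PBd P) (hr : PT A r) (hq : PT A q)
    (h10 : ∀ d, 10 ≤ P d) (hrq : ∀ d, r d < q d) :
    PT A (fun d => rootRec (P d) (r d) (q d) (P d)) :=
  PT.natRec (init := fun d => rootIn (P d) (r d) (q d))
    (step := fun d j s => rootSt (P d) (r d) (q d) j s) hP hPb (pt_rootIn hP hPb hr hq)
    (pt_rootSt hP hPb hr hq) (b := fun d => 9 * (P d + 5) + 4)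
    (((PBd.const 9).mul (hPb.add (PBd.const 5))).add (PBd.const 4))
    fun d _ hj => esize_rootRec (h10 d) (hrq d) hj

theorem aux_pow (p : ℕ) : 2 * (46 * (p + (p + 14)) + 2) ≤ 2 ^ (p + 14) := by
  induction p with
  | zero => norm_num
  | succ p ih =>
    have e : 2 ^ (p + 1 + 14) = 2 ^ (p + 14) * 2 := by
      rw [← pow_succ, show p + 1 + 14 = p + 14 + 1 by ring]
    rw [e]
    clear e
    nlinarith

theorem RPT.root_aux {m q : α → ℕ} (hm : PT A m) (hq : PT A q) (h0 : ∀ a, m a < q a) :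
    RPT A (fun a => Real.cos (2 * Real.pi * m a / q a)) ∧
    RPT A (fun a => Real.sin (2 * Real.pi * m a / q a)) := by
  have hs : PT A (fun p : α × Un => p.2.v + 14) := PT.snd'.unVal.add (PT.const 14)
  have hsb : PBd (fun p : α × Un => p.2.v + 14) := pbd_un_add 14
  have hP : PT A (fun p : α × Un => p.2.v + (p.2.v + 14)) := PT.snd'.unVal.add hs
  have hPb : PBd (fun p : α × Un => p.2.v + (p.2.v + 14)) := (PBd.unVal (A := A) PT.snd').add hsb
  have key := pt_rootRec hP hPb (hm.comp PT.fst') (hq.comp PT.fst')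
    (fun d => by omega) (fun d => h0 d.1)
  have herr : ∀ (a : α) (p : ℕ), 2 * ‖toC (rootRec (p + (p + 14)) (m a) (q a) (p + (p + 14))).1 -
      2 ^ (p + (p + 14)) * ex (2 * Real.pi * m a / q a)‖ ≤ 2 ^ (p + 14) := by
    intro a p
    have h1 := root_err (p + (p + 14)) (by omega) (m a) (q a) (h0 a)
    have h2 : (2 : ℝ) * (46 * (p + (p + 14)) + 2) ≤ 2 ^ (p + 14) := by exact_mod_cast aux_pow p
    push_cast at h1
    linarith
  have hre : ∀ (P : ℕ) (t : ℝ), ((2 : ℂ) ^ P * ex t).re = 2 ^ P * Real.cos t := by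
    intro P t
    have : ((2 : ℂ) ^ P) = ((2 ^ P : ℝ) : ℂ) := by push_cast; rfl
    rw [this, Complex.re_ofReal_mul, ex]
  have him : ∀ (P : ℕ) (t : ℝ), ((2 : ℂ) ^ P * ex t).im = 2 ^ P * Real.sin t := by
    intro P t
    have : ((2 : ℂ) ^ P) = ((2 ^ P : ℝ) : ℂ) := by push_cast; rfl
    rw [this, Complex.im_ofReal_mul, ex]
  constructor
  · refine RPT.of_scaled (fun a p => (rootRec (p + (p + 14)) (m a) (q a) (p + (p + 14))).1.1)
      (fun a p => p + 14) key.fst.fst hs hsb fun a p => ?_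
    refine le_trans ?_ (herr a p)
    have := Complex.abs_re_le_norm (toC (rootRec (p + (p + 14)) (m a) (q a) (p + (p + 14))).1 -
      2 ^ (p + (p + 14)) * ex (2 * Real.pi * m a / q a))
    rw [Complex.sub_re, hre] at this
    simp only [toC] at this ⊢
    linarith
  · refine RPT.of_scaled (fun a p => (rootRec (p + (p + 14)) (m a) (q a) (p + (p + 14))).1.2)
      (fun a p => p + 14) key.fst.snd hs hsb fun a p => ?_
    refine le_trans ?_ (herr a p)
    have := Complex.abs_im_le_norm (toC (rootRec (p + (p + 14)) (m a) (q a) (p + (p + 14))).1 -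
      2 ^ (p + (p + 14)) * ex (2 * Real.pi * m a / q a))
    rw [Complex.sub_im, him] at this
    simp only [toC] at this ⊢
    linarith

/-- Reduction of the fraction modulo one. -/
theorem ex_reduce (m : ℤ) (q : ℕ) (hq : 0 < q) :
    ex (2 * Real.pi * m / q) = ex (2 * Real.pi * (m % (q : ℤ)).toNat / q) := by
  have h1 := Int.mul_ediv_add_emod m q
  have h2 : 0 ≤ m % (q : ℤ) := Int.emod_nonneg _ (by omega)
  have h3 : (((m % (q : ℤ)).toNat : ℤ) : ℝ) = ((m % (q : ℤ) : ℤ) : ℝ) := by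
    rw [Int.toNat_of_nonneg h2]
  have h4 : (((m % (q : ℤ)).toNat : ℕ) : ℝ) = ((m % (q : ℤ) : ℤ) : ℝ) := by exact_mod_cast h3
  have hq' : (q : ℝ) ≠ 0 := by exact_mod_cast hq.ne'
  rw [h4]
  generalize m / (q : ℤ) = Q at *
  generalize m % (q : ℤ) = R at *
  have h5 : (m : ℝ) = q * Q + R := by rw [← h1]; push_cast; ring
  have e : 2 * Real.pi * m / q = 2 * Real.pi * R / q + Q * (2 * Real.pi) := by
    rw [h5]
    field_simp
    ring
  rw [e]
  simp only [ex, Real.cos_add_int_mul_two_pi, Real.sin_add_int_mul_two_pi]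

theorem RPT.root_int {m : α → ℤ} {q : α → ℕ} (hm : PT A m) (hq : PT A q) :
    RPT A (fun a => Real.cos (2 * Real.pi * m a / q a)) ∧
    RPT A (fun a => Real.sin (2 * Real.pi * m a / q a)) := by
  have hq' : PT A (fun a => max (q a) 1) := hq.max (PT.const 1)
  have hr : PT A (fun a => (m a % ((max (q a) 1 : ℕ) : ℤ)).toNat) := (hm.intMod hq'.natCast).toNat
  obtain ⟨h1, h2⟩ := RPT.root_aux hr hq' (fun a => by
    have h : 0 < max (q a) 1 := by omega
    have := Int.emod_lt_of_pos (m a) (by exact_mod_cast h : (0 : ℤ) < ((max (q a) 1 : ℕ) : ℤ))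
    have h3 : 0 ≤ m a % ((max (q a) 1 : ℕ) : ℤ) := Int.emod_nonneg _ (by omega)
    omega)
  have hz : PT A (fun a => decide (q a = 0)) := hq.eqNat (PT.const 0)
  constructor
  · refine (RPT.ite hz RPT.one h1).congr fun a => ?_
    by_cases h : q a = 0
    · simp [h]
    · rw [if_neg h, show max (q a) 1 = q a by omega]
      have := congrArg Complex.re (ex_reduce (m a) (q a) (by omega))
      exact this.symm
  · refine (RPT.ite hz RPT.zero h2).congr fun a => ?_
    by_cases h : q a = 0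
    · simp [h]
    · rw [if_neg h, show max (q a) 1 = q a by omega]
      have := congrArg Complex.im (ex_reduce (m a) (q a) (by omega))
      exact this.symm

theorem RPT.cos {m : α → ℤ} {q : α → ℕ} (hm : PT A m) (hq : PT A q) :
    RPT A (fun a => Real.cos (2 * Real.pi * m a / q a)) := (RPT.root_int hm hq).1

theorem RPT.sin {m : α → ℤ} {q : α → ℕ} (hm : PT A m) (hq : PT A q) :
    RPT A (fun a => Real.sin (2 * Real.pi * m a / q a)) := (RPT.root_int hm hq).2

end Vale.Agent.P338.R3.H900
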